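import Claimed.Agent.R256.Int.Asm.Grid

/-!
# Row 256, Sec. 5, ASSEMBLY, file 7: binary layers, abstract part      (block BP-256-INT-ASM, helper239; prefix `it_a_`)

PAPER-FREE, Mathlib only.   Case (ii), `c > 3`.   The middle range `[u2, v2)` is split at `r = v2 - I j2 ∈ [u2, u2 + j2)`: microlayers on `[u2, r)`, binary layers `(g^(r + i j2), g^(r + (i+1) j2) = 2 g^(r + i j2))`, `i < I`.
A binary layer at depth `P` pays `(1/2) hF + (-1/2 - η) P L + (1/2)(P L - bm P)`, the width gains `max 0 (bm λ - d λ L)`.   `β i = Bm i / (g^i L) ∈ [0, 1 + η]`, `b = mean β`.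
-/

set_option autoImplicit false
set_option linter.unusedVariables false

namespace Claimed.Agent.R256

open scoped BigOperators

theorem it_a_mean_add (J : ℕ) (f h : ℕ → ℝ) : itMean J (fun n => f n + h n) = itMean J f + itMean J h := by
  unfold itMean
  rw [Finset.sum_add_distrib, add_div]

theorem it_a_aux_geo (g : ℝ) (j2 r : ℕ) (h2 : g ^ j2 = 2) (I : ℕ) :
    ∑ i ∈ Finset.range I, g ^ (r + i * j2) = g ^ (r + I * j2) - g ^ r := by
  induction I with
  | zero => simp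
  | succ I ih =>
    rw [Finset.sum_range_succ, ih]
    have e : r + (I + 1) * j2 = r + I * j2 + j2 := by ring
    rw [e, pow_add _ _ j2, h2]
    ring

/-- **LEAF L-256-INT-A-ABSB.**  OWNER helper239, EST 200 lines.   `N = J+v3+j0+j2`, `β i = if i ≤ N then Bm i / (g^i L) else 0 ∈ [0, 1+η]`, `b = itMean J β`.
`(g^(n+s) L - Bm (n+s)) / (g^(j0+n) L) = g^s/g^j0 (1 - β (n+s))` for `n < J`, `s ≤ v2`;   `∑_{i<I} g^(r + i j2) = g^v2 - g^r` (`g^j2 = 2`, geometric sum / induction on `I` with `hr` generalised).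
`max 0 (Bm (j0+n) - d g^(j0+n) L) / (g^(j0+n) L) = max 0 (β (n+j0) - d) ≥ t (β (n + j0) - d)` with `t = 0` or `1` according to `b ≤ d` or not.   `it_a_mean_comb` with `ι = Option (Fin I)` or `Finset.range (I+1)`, `K = 2`.
Shift errors: `∑_i (1/2) g^(r+i j2)/g^j0 · 4 (r + i j2)/J ≤ 2 (g^v2/g^j0) v2 / J ≤ 4 (1+c) v2 / J` (`hG.ev2`, `g ≤ 2`), `k · 4 j0 / J`; both `≤ η/2` by `hJ`. -/
theorem it_a_absB (c η : ℝ) (G : ItGr) (hG : G.Ok c η) (hc : 3 < c) (hη : 0 < η) (hη1 : η ≤ 1) (d k R0 L : ℝ) (hL : 0 < L)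
    (hk : 0 ≤ k) (hkR : k ≤ R0) (hR0 : 1 ≤ R0) (I r : ℕ) (hr : r + I * G.j2 = G.v2)
    (hJ : 100 * R0 * (1 + c) * ((G.v3 : ℝ) + G.j0 + G.j2) ≤ η * G.J)
    (Bm : ℕ → ℝ) (hB0 : ∀ i, 0 ≤ Bm i) (hB1 : ∀ i ≤ G.J + G.v3 + G.j0 + G.j2, Bm i ≤ (1 + η) * G.g ^ i * L) :
    ∃ b : ℝ, 0 ≤ b ∧ b ≤ 1 + η ∧
      1 / 2 * ((G.g ^ G.v2 - G.g ^ r) / G.g ^ G.j0) * (1 - b) + k * max 0 (b - d) - η
        ≤ itMean G.J (fun n => (1 / 2 * ∑ i ∈ Finset.range I, (G.g ^ (n + r + i * G.j2) * L - Bm (n + r + i * G.j2))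
            + k * max 0 (Bm (G.j0 + n) - d * G.g ^ (G.j0 + n) * L)) / (G.g ^ (G.j0 + n) * L)) := by
  have hg1 : 1 < G.g := hG.g1
  have hg0 : 0 < G.g := by linarith
  have hg2 : G.g ≤ 2 := by linarith [hG.gη]
  have o3 := hG.o3
  have o4 := hG.o4
  obtain ⟨X, hX⟩ : ∃ X, X = G.g ^ G.j0 := ⟨_, rfl⟩
  have hX0 : 0 < X := hX ▸ pow_pos hg0 _
  have hJR : (0 : ℝ) < G.J := by exact_mod_cast hG.Jpos
  obtain ⟨N, hN⟩ : ∃ N, N = G.J + G.v3 + G.j0 + G.j2 := ⟨_, rfl⟩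
  obtain ⟨β, hβ⟩ : ∃ β : ℕ → ℝ, β = fun i => if i ≤ N then Bm i / (G.g ^ i * L) else 0 := ⟨_, rfl⟩
  have hgL : ∀ i, 0 < G.g ^ i * L := fun i => mul_pos (pow_pos hg0 i) hL
  have hβ0 : ∀ i, 0 ≤ β i := by
    intro i
    rw [hβ]
    dsimp only
    split_ifs
    · exact div_nonneg (hB0 i) (hgL i).le
    · exact le_rfl
  have hβ1 : ∀ i, β i ≤ 1 + η := by
    intro i
    rw [hβ]
    dsimp only
    split_ifs with h
    · rw [div_le_iff₀ (hgL i)]
      have := hB1 i (hN ▸ h)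
      linarith
    · linarith
  have hβe : ∀ i ≤ N, Bm i = β i * (G.g ^ i * L) := by
    intro i hi
    rw [hβ]
    dsimp only
    rw [if_pos hi, div_mul_cancel₀ _ (hgL i).ne']
  have hβK : ∀ i, |β i| ≤ 2 := fun i => by rw [abs_of_nonneg (hβ0 i)]; linarith [hβ1 i]
  obtain ⟨b, hb⟩ : ∃ b, b = itMean G.J β := ⟨_, rfl⟩
  have hb0 : 0 ≤ b := by
    rw [hb]; unfold itMean
    exact div_nonneg (Finset.sum_nonneg fun i _ => hβ0 i) hJR.le
  have hb1 : b ≤ 1 + η := by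
    rw [hb]; unfold itMean
    rw [div_le_iff₀ hJR]
    calc ∑ n ∈ Finset.range G.J, β n ≤ ∑ n ∈ Finset.range G.J, (1 + η) := Finset.sum_le_sum fun i _ => hβ1 i
      _ = (1 + η) * G.J := by rw [Finset.sum_const, Finset.card_range, nsmul_eq_mul]; ring
  obtain ⟨t, ht0, ht1, htb⟩ : ∃ t : ℝ, 0 ≤ t ∧ t ≤ 1 ∧ max 0 (b - d) = t * (b - d) := by
    rcases le_total b d with h | h
    · exact ⟨0, le_rfl, zero_le_one, by rw [max_eq_left (by linarith)]; ring⟩
    · exact ⟨1, zero_le_one, le_rfl, by rw [max_eq_right (by linarith)]; ring⟩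
  have htx : ∀ x : ℝ, t * x ≤ max 0 x := by
    intro x
    rcases le_total 0 x with h | h
    · exact le_trans (by nlinarith) (le_max_right _ _)
    · exact le_trans (by nlinarith) (le_max_left _ _)
  obtain ⟨a, ha⟩ : ∃ a : ℕ → ℝ, a = fun i => G.g ^ (r + i * G.j2) / X := ⟨_, rfl⟩
  have ha0 : ∀ i, 0 ≤ a i := fun i => by rw [ha]; exact (div_pos (pow_pos hg0 _) hX0).le
  obtain ⟨S, hS⟩ : ∃ S, S = ∑ i ∈ Finset.range I, a i := ⟨_, rfl⟩
  have hSe : S = (G.g ^ G.v2 - G.g ^ r) / X := by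
    rw [hS, ha, ← Finset.sum_div, it_a_aux_geo G.g G.j2 r hG.two I, hr]
  have hS0 : 0 ≤ S := hS ▸ Finset.sum_nonneg fun i _ => ha0 i
  have hS2 : S ≤ 2 * (1 + c) := by
    rw [hSe, div_le_iff₀ hX0]
    have h1 := hG.ev2.2
    rw [max_eq_right (by linarith : (1 : ℝ) ≤ c), ← hX] at h1
    have h2 : G.g * (c * X) ≤ 2 * (c * X) := mul_le_mul_of_nonneg_right hg2 (by positivity)
    have h3 : 0 < G.g ^ r := pow_pos hg0 r
    linarith
  have hsh : ∀ i ∈ Finset.range I, r + i * G.j2 ≤ G.v2 := by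
    intro i hi
    have := Nat.mul_le_mul_right G.j2 (Finset.mem_range.1 hi).le
    omega
  refine ⟨b, hb0, hb1, le_trans ?_ (it_a_mean_comb (Finset.insertNone (Finset.range I))
    (fun o => o.elim (k * t) (fun i => -(1 / 2) * a i)) (fun o => o.elim G.j0 (fun i => r + i * G.j2)) (fun _ => β) 2
    (fun _ _ i => hβK i) G.J hG.Jpos _ (1 / 2 * S - k * t * d) ?_)⟩
  · rw [Finset.sum_insertNone, Finset.sum_insertNone]
    simp only [Option.elim]
    rw [← hb, ← hX, ← hSe, htb]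
    have e1 : ∑ i ∈ Finset.range I, -(1 / 2) * a i * b = -(1 / 2) * S * b := by
      rw [hS, Finset.mul_sum, Finset.sum_mul]
    have e2 : ∑ i ∈ Finset.range I, |-(1 / 2) * a i| * (2 * 2 * ((r + i * G.j2 : ℕ) : ℝ) / G.J)
        ≤ 1 / 2 * S * (4 * G.v2 / G.J) := by
      rw [hS, Finset.mul_sum, Finset.sum_mul]
      refine Finset.sum_le_sum fun i hi => ?_
      have h1 : |-(1 / 2) * a i| = 1 / 2 * a i := by
        rw [abs_mul, abs_neg, abs_of_nonneg (ha0 i), abs_of_nonneg (by norm_num)]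
      rw [h1]
      refine mul_le_mul_of_nonneg_left ?_ (mul_nonneg (by norm_num) (ha0 i))
      refine div_le_div_of_nonneg_right ?_ hJR.le
      have h2 : ((r + i * G.j2 : ℕ) : ℝ) ≤ G.v2 := by exact_mod_cast hsh i hi
      linarith
    have e3 : |k * t| * (2 * 2 * (G.j0 : ℝ) / G.J) ≤ R0 * (4 * G.j0 / G.J) := by
      have h1 : |k * t| ≤ R0 := by
        rw [abs_of_nonneg (mul_nonneg hk ht0)]
        nlinarith
      have h2 : 2 * 2 * (G.j0 : ℝ) / G.J = 4 * G.j0 / G.J := by norm_num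
      rw [h2]
      exact mul_le_mul_of_nonneg_right h1 (by positivity)
    obtain ⟨W, hW⟩ : ∃ W : ℝ, W = (G.v3 : ℝ) + G.j0 + G.j2 := ⟨_, rfl⟩
    rw [← hW] at hJ
    have hW0 : 0 ≤ W := by rw [hW]; positivity
    have hWJ : R0 * (1 + c) * W / G.J ≤ η / 100 := by
      rw [div_le_iff₀ hJR]
      linarith
    have hv2W : (G.v2 : ℝ) ≤ W := by
      have : (G.v2 : ℝ) ≤ G.v3 := by exact_mod_cast o3.trans o4
      rw [hW]
      have h2 : (0 : ℝ) ≤ G.j0 := Nat.cast_nonneg _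
      have h3 : (0 : ℝ) ≤ G.j2 := Nat.cast_nonneg _
      linarith
    have hj0W : (G.j0 : ℝ) ≤ W := by
      rw [hW]
      have h2 : (0 : ℝ) ≤ G.v3 := Nat.cast_nonneg _
      have h3 : (0 : ℝ) ≤ G.j2 := Nat.cast_nonneg _
      linarith
    have hRc : 1 + c ≤ R0 * (1 + c) := le_mul_of_one_le_left (by linarith) hR0
    have q1 : 1 / 2 * S * (4 * G.v2 / G.J) ≤ 4 * (R0 * (1 + c) * W / G.J) := by
      have h1 : S * G.v2 ≤ (2 * (R0 * (1 + c))) * W :=
        mul_le_mul (by linarith) hv2W (Nat.cast_nonneg _) (by positivity)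
      have h2 : 1 / 2 * S * (4 * G.v2 / G.J) = 2 * (S * G.v2) / G.J := by ring
      have h3 : 4 * (R0 * (1 + c) * W / G.J) = 2 * ((2 * (R0 * (1 + c))) * W) / G.J := by ring
      rw [h2, h3]
      exact div_le_div_of_nonneg_right (by linarith) hJR.le
    have q2 : R0 * (4 * G.j0 / G.J) ≤ 4 * (R0 * (1 + c) * W / G.J) := by
      have h1 : R0 * G.j0 ≤ (R0 * (1 + c)) * W :=
        mul_le_mul (le_mul_of_one_le_right (by linarith) (by linarith)) hj0W (Nat.cast_nonneg _) (by positivity)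
      have h2 : R0 * (4 * G.j0 / G.J) = 4 * (R0 * G.j0) / G.J := by ring
      have h3 : 4 * (R0 * (1 + c) * W / G.J) = 4 * ((R0 * (1 + c)) * W) / G.J := by ring
      rw [h2, h3]
      exact div_le_div_of_nonneg_right (by linarith) hJR.le
    rw [e1]
    linarith
  · intro n hn
    rw [Finset.sum_insertNone]
    simp only [Option.elim]
    rw [le_div_iff₀ (hgL _)]
    obtain ⟨D, hD⟩ : ∃ D, D = G.g ^ (G.j0 + n) * L := ⟨_, rfl⟩
    have hterm : ∀ i ∈ Finset.range I, G.g ^ (n + r + i * G.j2) * L - Bm (n + r + i * G.j2)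
        = a i * (1 - β (n + (r + i * G.j2))) * D := by
      intro i hi
      have h1 := hsh i hi
      rw [add_assoc n r, hβe _ (by omega), ha, hD, pow_add G.g n, pow_add G.g G.j0, ← hX]
      field_simp
    have hsum : ∑ i ∈ Finset.range I, (G.g ^ (n + r + i * G.j2) * L - Bm (n + r + i * G.j2))
        = (S - ∑ i ∈ Finset.range I, a i * β (n + (r + i * G.j2))) * D := by
      rw [Finset.sum_congr rfl hterm, ← Finset.sum_mul, hS, ← Finset.sum_sub_distrib]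
      congr 1
      exact Finset.sum_congr rfl fun i _ => by ring
    have hkk : t * (β (n + G.j0) - d) * D ≤ max 0 (Bm (G.j0 + n) - d * G.g ^ (G.j0 + n) * L) := by
      have e : Bm (G.j0 + n) - d * G.g ^ (G.j0 + n) * L = (β (n + G.j0) - d) * D := by
        rw [hβe (G.j0 + n) (by omega), add_comm n G.j0, hD]
        ring
      rw [e]
      have := htx ((β (n + G.j0) - d) * D)
      linarith
    have e5 : ∑ i ∈ Finset.range I, -(1 / 2) * a i * β (n + (r + i * G.j2))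
        = -(1 / 2) * ∑ i ∈ Finset.range I, a i * β (n + (r + i * G.j2)) := by
      rw [Finset.mul_sum]
      exact Finset.sum_congr rfl fun i _ => by ring
    rw [hsum, e5, ← hD]
    have h9 := mul_le_mul_of_nonneg_left hkk hk
    linarith

/-- NUM of the binary case.   `4 (rhs - lhs) = (3-c)(1-d) + 2(c-1)m + 2(V-R)(1-b) + (c+1) max 0 (b-d) + 8(1+c)η`. -/
theorem it_a_num_B (c d m η b V R : ℝ) (hc : 3 < c) (hd0 : 0 < d) (hd1 : d ≤ 1) (hm0 : 0 ≤ m) (hη : 0 < η) (hη4 : η ≤ 1 / 10)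
    (hb0 : 0 ≤ b) (hb1 : b ≤ 1 + η) (hV : c * (1 - η) ≤ V) (hV2 : V ≤ c) (hR0 : 0 ≤ R) (hR1 : R ≤ 2 * (1 + η)) :
    1 + 3 * d + c - 5 * ((c + 1) / 4) - 2 * (1 + c) * η
      ≤ d + (-m) * 1 + (-(1 / 2)) * (c - 1) + d * 1 - (c + 1) / 4 * (-(2 * m + d))
        + 1 / 2 * (V - R) * (1 - b) + (c + 1) / 4 * max 0 (b - d) := by
  have hcm : 0 ≤ (c - 1) * m := mul_nonneg (by linarith) hm0
  -- Q = 3 - c + 2V - 2R ≥ -(2c+4) η
  have hQ : -((2 * c + 4) * η) ≤ 3 - c + 2 * V - 2 * R := by nlinarith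
  have hVR : 0 ≤ V - R := by nlinarith [mul_pos (by linarith : 0 < c - 3) (by linarith : 0 < 1 - η)]
  suffices h : 0 ≤ (3 - c) * (1 - d) + 2 * (V - R) * (1 - b) + (c + 1) * max 0 (b - d) + 8 * (1 + c) * η by
    nlinarith
  rcases le_total b d with hbd | hbd
  · rw [max_eq_left (by linarith)]
    have h1 : (V - R) * (1 - d) ≤ (V - R) * (1 - b) := mul_le_mul_of_nonneg_left (by linarith) hVR
    have h2 : -((2 * c + 4) * η) * (1 - d) ≤ (3 - c + 2 * V - 2 * R) * (1 - d) :=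
      mul_le_mul_of_nonneg_right hQ (by linarith)
    have h3 : (2 * c + 4) * η * (1 - d) ≤ (2 * c + 4) * η := by
      have : 0 ≤ (2 * c + 4) * η := by positivity
      nlinarith
    nlinarith
  · rw [max_eq_right (by linarith)]
    rcases le_total b 1 with hb | hb
    · have h2 : -((2 * c + 4) * η) * (1 - b) ≤ (3 - c + 2 * V - 2 * R) * (1 - b) :=
        mul_le_mul_of_nonneg_right hQ (by linarith)
      have h3 : (2 * c + 4) * η * (1 - b) ≤ (2 * c + 4) * η := by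
        have : 0 ≤ (2 * c + 4) * η := by positivity
        nlinarith
      nlinarith
    · -- x = b - 1 ∈ [0, η]
      have h2 : (2 * V - 2 * R - c - 1) * (b - 1) ≤ (c - 1) * (b - 1) :=
        mul_le_mul_of_nonneg_right (by linarith) (by linarith)
      have h3 : (c - 1) * (b - 1) ≤ (c - 1) * η := mul_le_mul_of_nonneg_left (by linarith) (by linarith)
      nlinarith

end Claimed.Agent.R256
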