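import Claimed.Agent.R256.Int.Asm.Cases
import Claimed.Agent.R256.Int.Asm.GridB

/-!
# Row 256, Sec. 5, ASSEMBLY, file 8: (ii) quadratic motion with `c > 3` (binary layers)      (block BP-256-INT-ASM, helper239; prefix `it_a_`)

`it_a_wid_B`, `it_a_bin_B` : the depth patterns (from `it_width_q`, `it_e_q`, `it_e_bin`, `it_cost_bin`).      PROVED
`ItChain`, `it_a_chain_*`  : concatenation of chains of layers for `it_k_inf_chain`.                          LEAF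
`it_a_timeB`               : step 3 with micro- and binary layers.                                            LEAF
`it_a_act_ii_big`, `it_a_act_ii` : GLUE PROVED (`it_a_abs3` for `E - Y`, `W + Z`;  `it_a_absB`;  `it_a_num_B`).
-/

set_option autoImplicit false
set_option linter.unusedVariables false

namespace Claimed.Agent.R256

open Claimed.Agent.R255
open Claimed.Agent.R255.FLaw (pair)
open scoped BigOperators
open Classical

/-- width with both wedge bounds: the gain `max 0 (bm - d l L)` -/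
theorem it_a_wid_B (a : ItPar) (ha : a.Ok) (hm : 0 < a.m) (hc : 3 < a.c) :
    ItDepth true true false a (fun T pk l η => l ∈ pk.Lam →
      T.P.entC (T.Wd l) T.Cs + max 0 (T.bm pk.M l - a.d * l * T.L) ≤ T.hA pk.M (2 * l) + (-(2 * a.m + a.d) + η) * l * T.L) := by
  have h1 := it_a_depth_flags (av' := true) (cr' := false) (it_width_q a ha) (by simp) (by simp)
  have H := it_a_depth_scale (it_a_depth_and h1 (it_a_depth_and (it_e_q a ha hm) (it_e_bin a ha hm hc))) 2 (by norm_num)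
  refine it_a_depth_mono H ?_
  intro T pk l η τ κ0 acc hη hl hok hquad hadm h hmem
  obtain ⟨b1, b2, b3, -⟩ := h
  have b1 := b1 hmem
  rcases max_choice 0 (T.bm pk.M l - a.d * l * T.L) with e | e <;> rw [e] <;> linarith

/-- a binary layer pays; `b_miss ≤ 1` -/
theorem it_a_bin_B (a : ItPar) (ha : a.Ok) (hm : 0 < a.m) (hc : 3 < a.c) :
    ItDepth true true false a (fun T pk p η =>
      (∀ l ∈ pk.Lam, l ≤ p → p ≤ (a.c - 1) * l → 2 * p ≤ a.c * l →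
        1 / 2 * T.hF pk.M p (2 * p) + (-(1 / 2) - η) * (2 * p - p) * T.L + 1 / 2 * (p * T.L - T.bm pk.M p) ≤ T.inf l p (2 * p))
      ∧ T.bm pk.M p ≤ (1 + η) * p * T.L) := by
  refine it_a_depth_mono (it_a_depth_and (it_cost_bin a ha hm hc) (it_e_bin a ha hm hc)) ?_
  intro T pk p η τ κ0 acc hη hp hok hquad hadm h
  obtain ⟨b1, -, b3⟩ := h
  refine ⟨fun l hl h1 h2 h3 => ?_, b3⟩
  have b1 := b1 l hl h1 h2 h3
  have hL := it_a_L_pos T hadm.t0.δ0 hadm.t0.δ1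
  have ht : 0 < η * (p * T.L) := mul_pos hη (mul_pos hp hL)
  linarith

/-! ## chains of layers -/

/-- an increasing chain of `n` disjoint layers `(P k, Q k)` inside `[lo, hi]` -/
def ItChain (n : ℕ) (P Q : ℕ → ℝ) (lo hi : ℝ) : Prop :=
  (∀ k < n, P k ≤ Q k) ∧ (∀ k, k + 1 < n → Q k ≤ P (k + 1)) ∧ (∀ k < n, lo ≤ P k) ∧ (∀ k < n, Q k ≤ hi)

/-- concatenation of two sequences -/
def itApp (n : ℕ) (P P' : ℕ → ℝ) : ℕ → ℝ := fun k => if k < n then P k else P' (k - n)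

theorem it_a_bin_eqns_cite : True := by
  have := @ItChain.eq_1; have := @itApp.eq_1
  trivial

/-- **LEAF L-256-INT-A-CH1.**  OWNER helper239, EST 60 lines.   Case analysis `k < n`, `k + 1 < n`, ... (`omega`, `if_pos`, `if_neg`). -/
theorem it_a_chain_app (n n' : ℕ) (P Q P' Q' : ℕ → ℝ) (lo z z' hi : ℝ) (h : ItChain n P Q lo z) (h' : ItChain n' P' Q' z' hi)
    (hz : z ≤ z') (hlo : lo ≤ z') (hhi : z ≤ hi) : ItChain (n + n') (itApp n P P') (itApp n Q Q') lo hi := by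
  obtain ⟨a1, a2, a3, a4⟩ := h
  obtain ⟨b1, b2, b3, b4⟩ := h'
  refine ⟨fun k hk => ?_, fun k hk => ?_, fun k hk => ?_, fun k hk => ?_⟩
  · unfold itApp
    by_cases h1 : k < n
    · rw [if_pos h1, if_pos h1]; exact a1 k h1
    · rw [if_neg h1, if_neg h1]; exact b1 _ (by omega)
  · unfold itApp
    by_cases h1 : k + 1 < n
    · rw [if_pos (by omega), if_pos h1]; exact a2 k h1
    · by_cases h2 : k < n
      · rw [if_pos h2, if_neg h1]
        exact ((a4 k h2).trans hz).trans (b3 _ (by omega))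
      · rw [if_neg h2, if_neg h1]
        have e : k + 1 - n = (k - n) + 1 := by omega
        rw [e]
        exact b2 _ (by omega)
  · unfold itApp
    by_cases h1 : k < n
    · rw [if_pos h1]; exact a3 k h1
    · rw [if_neg h1]; exact hlo.trans (b3 _ (by omega))
  · unfold itApp
    by_cases h1 : k < n
    · rw [if_pos h1]; exact (a4 k h1).trans hhi
    · rw [if_neg h1]; exact b4 _ (by omega)

/-- **LEAF L-256-INT-A-CH1.**  `Finset.sum_range_add`-type splitting (`Finset.sum_range_add` / `Finset.range_add`), `if_pos`, `if_neg`, `Nat.add_sub_cancel_left`. -/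
theorem it_a_chain_sum (n n' : ℕ) (P Q P' Q' : ℕ → ℝ) (F : ℝ → ℝ → ℝ) :
    ∑ k ∈ Finset.range (n + n'), F (itApp n P P' k) (itApp n Q Q' k)
      = ∑ k ∈ Finset.range n, F (P k) (Q k) + ∑ k ∈ Finset.range n', F (P' k) (Q' k) := by
  rw [Finset.sum_range_add]
  congr 1
  · refine Finset.sum_congr rfl fun k hk => ?_
    have h1 : k < n := Finset.mem_range.1 hk
    unfold itApp
    rw [if_pos h1, if_pos h1]
  · refine Finset.sum_congr rfl fun k _ => ?_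
    unfold itApp
    rw [if_neg (by omega), if_neg (by omega), Nat.add_sub_cancel_left]

/-- **LEAF L-256-INT-A-CH1.**  Geometric chain with step `j` (`pow_le_pow_right₀`). -/
theorem it_a_chain_geo (g : ℝ) (hg : 1 ≤ g) (s j m : ℕ) :
    ItChain m (fun t => g ^ (s + t * j)) (fun t => g ^ (s + (t + 1) * j)) (g ^ s) (g ^ (s + m * j)) := by
  refine ⟨fun k _ => ?_, fun k _ => le_rfl, fun k _ => ?_, fun k hk => ?_⟩
  · exact pow_le_pow_right₀ hg (by nlinarith)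
  · exact pow_le_pow_right₀ hg (by omega)
  · exact pow_le_pow_right₀ hg (Nat.add_le_add_left (Nat.mul_le_mul_right j (by omega)) s)

/-- **LEAF L-256-INT-A-CH1.**  `it_k_inf_chain`. -/
theorem it_a_chain_le (T : Tan) (h0 : 0 < T.δ) (h1 : T.δ < 1) (l : ℝ) (n : ℕ) (P Q : ℕ → ℝ) (lo hi : ℝ) (h : ItChain n P Q lo hi) :
    ∑ k ∈ Finset.range n, T.inf l (P k) (Q k) ≤ T.P.miC (T.Fn hi) (T.O l) T.Cs :=
  it_k_inf_chain T h0 h1 l n P Q hi h.1 h.2.1 h.2.2.2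

/-- **LEAF L-256-INT-A-TIMEB.**  OWNER helper239, EST 250 lines.   As `it_a_time3`, but the middle range `[u2, v2)` consists of the microlayers `[u2, r)` (`hp2`) and of the binary layers `P_i = g^(n+r+i j2)`, `2 P_i = g^(n+r+(i+1) j2)` (`hG.two`), `i < I` (`hbin`).
Conditions of `hbin` at `l = g^(j0+n)`:  `l ≤ P_i` (`hG.eu2` with `min 1 c = 1`, `u2 ≤ r`);  `2 P_i ≤ g^(n+v2) ≤ c l` (`hv2`);  `P_i ≤ (c-1) l` from `2 P_i ≤ c l`, `c ≥ 2`.
Telescoping: `∑_i hF(P_i, 2P_i) = hA(g^(n+v2)) - hA(g^(n+r))` (`it_k_tele`), `∑_i (2P_i - P_i) = g^(n+v2) - g^(n+r)`.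
Chain: `it_a_chain_geo` four times (steps `1, 1, j2, 1`), `it_a_chain_app`, `it_a_chain_sum` three times, `it_a_chain_le`; microlayers by `it_a_range_sum`. -/
theorem it_a_timeB (T : Tan) (pk : ItPk) (h0 : 0 < T.δ) (h1 : T.δ < 1) (c η d : ℝ) (G : ItGr) (hG : G.Ok c η) (hc : 3 < c)
    (I r : ℕ) (hr : r + I * G.j2 = G.v2) (hur : G.u2 ≤ r) (hv2 : G.g ^ G.v2 ≤ c * G.g ^ G.j0)
    (θ1 θ3 ρ1 ρ3 : ℝ) (n : ℕ) (hl : G.g ^ (G.j0 + n) ∈ pk.Lam)
    (hp1 : ∀ i < n + G.v3, ∀ l ∈ pk.Lam, 0 * l ≤ G.g ^ i → G.g ^ (i + 1) ≤ min 1 c * l →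
      θ1 * T.hF pk.M (G.g ^ i) (G.g ^ (i + 1)) + (ρ1 - η) * (G.g ^ (i + 1) - G.g ^ i) * T.L ≤ T.inf l (G.g ^ i) (G.g ^ (i + 1)))
    (hp2 : ∀ i < n + G.v3, ∀ l ∈ pk.Lam, min 1 c * l ≤ G.g ^ i → G.g ^ (i + 1) ≤ max 1 c * l →
      1 / 2 * T.hF pk.M (G.g ^ i) (G.g ^ (i + 1)) + (-(1 / 2) - η) * (G.g ^ (i + 1) - G.g ^ i) * T.L
        ≤ T.inf l (G.g ^ i) (G.g ^ (i + 1)))
    (hp3 : ∀ i < n + G.v3, ∀ l ∈ pk.Lam, max 1 c * l ≤ G.g ^ i → G.g ^ (i + 1) ≤ (1 + c) * l →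
      θ3 * T.hF pk.M (G.g ^ i) (G.g ^ (i + 1)) + (ρ3 - η) * (G.g ^ (i + 1) - G.g ^ i) * T.L ≤ T.inf l (G.g ^ i) (G.g ^ (i + 1)))
    (hbin : ∀ i < n + G.v3, ∀ l ∈ pk.Lam, l ≤ G.g ^ i → G.g ^ i ≤ (c - 1) * l → 2 * G.g ^ i ≤ c * l →
      1 / 2 * T.hF pk.M (G.g ^ i) (2 * G.g ^ i) + (-(1 / 2) - η) * (2 * G.g ^ i - G.g ^ i) * T.L
        + 1 / 2 * (G.g ^ i * T.L - T.bm pk.M (G.g ^ i)) ≤ T.inf l (G.g ^ i) (2 * G.g ^ i))
    (htime : ∀ Q : ℝ, (d - η) * G.g ^ (G.j0 + n) * T.L + T.P.miC (T.Fn Q) (T.O (G.g ^ (G.j0 + n))) T.Cs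
      ≤ T.P.entC (T.O (G.g ^ (G.j0 + n))) T.Cs) :
    (d - η) * G.g ^ (G.j0 + n) * T.L
        + (θ1 * (T.hA pk.M (G.g ^ (n + G.v1)) - T.hA pk.M (G.g ^ n)) + (ρ1 - η) * (G.g ^ (n + G.v1) - G.g ^ n) * T.L)
        + (1 / 2 * (T.hA pk.M (G.g ^ (n + G.v2)) - T.hA pk.M (G.g ^ (n + G.u2)))
            + (-(1 / 2) - η) * (G.g ^ (n + G.v2) - G.g ^ (n + G.u2)) * T.L)
        + (θ3 * (T.hA pk.M (G.g ^ (n + G.v3)) - T.hA pk.M (G.g ^ (n + G.u3)))
            + (ρ3 - η) * (G.g ^ (n + G.v3) - G.g ^ (n + G.u3)) * T.L)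
        + 1 / 2 * ∑ i ∈ Finset.range I, (G.g ^ (n + r + i * G.j2) * T.L - T.bm pk.M (G.g ^ (n + r + i * G.j2)))
      ≤ T.P.entC (T.O (G.g ^ (G.j0 + n))) T.Cs := by
  have hg1 : 1 ≤ G.g := hG.g1.le
  have hg0 : 0 < G.g := by linarith [hG.g1]
  have hgn : 0 < G.g ^ n := pow_pos hg0 n
  have o1 := hG.o1
  have o2 := hG.o2
  have o3 := hG.o3
  have o4 := hG.o4
  have hmin : min 1 c = 1 := min_eq_left (by linarith)
  have hmax : max 1 c = c := max_eq_right (by linarith)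
  have hrv : r ≤ G.v2 := by omega
  have hj2 : 0 < G.j2 := by
    rcases Nat.eq_zero_or_pos G.j2 with h | h
    · have := hG.two
      rw [h, pow_zero] at this
      norm_num at this
    · exact h
  have up : ∀ (i : ℕ) (x : ℝ), G.g ^ i ≤ x * G.g ^ G.j0 → G.g ^ (n + i) ≤ x * G.g ^ (G.j0 + n) := by
    intro i x hx
    have := mul_le_mul_of_nonneg_left hx hgn.le
    rw [pow_add, pow_add]
    linarith
  have dn : ∀ (i : ℕ) (x : ℝ), x * G.g ^ G.j0 ≤ G.g ^ i → x * G.g ^ (G.j0 + n) ≤ G.g ^ (n + i) := by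
    intro i x hx
    have := mul_le_mul_of_nonneg_left hx hgn.le
    rw [pow_add, pow_add]
    linarith
  obtain ⟨l, hld⟩ : ∃ l, l = G.g ^ (G.j0 + n) := ⟨_, rfl⟩
  rw [← hld] at hl htime up dn ⊢
  have hl0 : 0 < l := by rw [hld]; exact pow_pos hg0 _
  have s1 := it_a_range_sum T h0 h1 pk.M G.g l θ1 (ρ1 - η) hg1 n G.v1 (fun t ht =>
    hp1 (n + t) (by omega) _ hl (by rw [zero_mul]; exact (pow_pos hg0 _).le) (up (t + 1) _ (hG.r1 t ht)))
  have s2 := it_a_range_sum T h0 h1 pk.M G.g l (1 / 2) (-(1 / 2) - η) hg1 (n + G.u2) (r - G.u2)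
    (fun t ht => by
      have hr := hG.r2 (G.u2 + t) (by omega) (by omega)
      have e1 : n + G.u2 + t = n + (G.u2 + t) := by omega
      have e2 : n + G.u2 + t + 1 = n + (G.u2 + t + 1) := by omega
      exact hp2 (n + G.u2 + t) (by omega) _ hl (by rw [e1]; exact dn _ _ hr.1) (by rw [e2]; exact up _ _ hr.2))
  have s3 := it_a_range_sum T h0 h1 pk.M G.g l θ3 (ρ3 - η) hg1 (n + G.u3) (G.v3 - G.u3)
    (fun t ht => by
      have hr := hG.r3 (G.u3 + t) (by omega) (by omega)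
      have e1 : n + G.u3 + t = n + (G.u3 + t) := by omega
      have e2 : n + G.u3 + t + 1 = n + (G.u3 + t + 1) := by omega
      exact hp3 (n + G.u3 + t) (by omega) _ hl (by rw [e1]; exact dn _ _ hr.1) (by rw [e2]; exact up _ _ hr.2))
  have e2 : n + G.u2 + (r - G.u2) = n + r := by omega
  have e3 : n + G.u3 + (G.v3 - G.u3) = n + G.v3 := by omega
  rw [e2] at s2
  rw [e3] at s3
  -- the binary layers
  have htwo : ∀ i : ℕ, G.g ^ (n + r + (i + 1) * G.j2) = 2 * G.g ^ (n + r + i * G.j2) := by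
    intro i
    have e : n + r + (i + 1) * G.j2 = (n + r + i * G.j2) + G.j2 := by ring
    rw [e, pow_add, hG.two, mul_comm]
  have sB : ∀ m ≤ I, 1 / 2 * (T.hA pk.M (G.g ^ (n + r + m * G.j2)) - T.hA pk.M (G.g ^ (n + r)))
      + (-(1 / 2) - η) * (G.g ^ (n + r + m * G.j2) - G.g ^ (n + r)) * T.L
      + 1 / 2 * ∑ i ∈ Finset.range m, (G.g ^ (n + r + i * G.j2) * T.L - T.bm pk.M (G.g ^ (n + r + i * G.j2)))
      ≤ ∑ i ∈ Finset.range m, T.inf l (G.g ^ (n + r + i * G.j2)) (G.g ^ (n + r + (i + 1) * G.j2)) := by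
    intro m
    induction m with
    | zero => intro _; simp
    | succ m ih =>
      intro hm
      have ih := ih (by omega)
      rw [Finset.sum_range_succ, Finset.sum_range_succ]
      have hle : r + (m + 1) * G.j2 ≤ G.v2 := by
        have : (m + 1) * G.j2 ≤ I * G.j2 := Nat.mul_le_mul_right _ hm
        omega
      have hle' : r + m * G.j2 + G.j2 = r + (m + 1) * G.j2 := by ring
      have a1 : l ≤ G.g ^ (n + r + m * G.j2) := by
        have h5 : 1 * G.g ^ G.j0 ≤ G.g ^ (r + m * G.j2) := by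
          have := hG.eu2.1
          rw [hmin] at this
          exact this.trans (pow_le_pow_right₀ hg1 (by omega))
        have := dn _ _ h5
        rw [one_mul] at this
        rwa [add_assoc]
      have a3 : 2 * G.g ^ (n + r + m * G.j2) ≤ c * l := by
        rw [← htwo]
        have h5 : G.g ^ (r + (m + 1) * G.j2) ≤ c * G.g ^ G.j0 := (pow_le_pow_right₀ hg1 hle).trans hv2
        have := up _ _ h5
        rwa [add_assoc]
      have a2 : G.g ^ (n + r + m * G.j2) ≤ (c - 1) * l := by nlinarith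
      have hb := hbin (n + r + m * G.j2) (by omega) l hl a1 a2 a3
      have ht := it_k_tele T h0 h1 pk.M (G.g ^ (n + r + m * G.j2)) (G.g ^ (n + r + (m + 1) * G.j2))
        (pow_le_pow_right₀ hg1 (by omega))
      rw [← htwo] at hb
      rw [ht]
      linarith
  have sB := sB I le_rfl
  have eI : n + r + I * G.j2 = n + G.v2 := by omega
  -- the chain
  have geo1 : ∀ s m : ℕ, ItChain m (fun t => G.g ^ (s + t)) (fun t => G.g ^ (s + t + 1)) (G.g ^ s) (G.g ^ (s + m)) := by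
    intro s m
    refine ⟨fun k _ => ?_, fun k _ => le_rfl, fun k _ => ?_, fun k hk => ?_⟩
    · exact pow_le_pow_right₀ hg1 (by omega)
    · exact pow_le_pow_right₀ hg1 (by omega)
    · exact pow_le_pow_right₀ hg1 (by omega)
  have cA := geo1 n G.v1
  have cB := geo1 (n + G.u2) (r - G.u2)
  have cC := it_a_chain_geo G.g hg1 (n + r) G.j2 I
  have cD := geo1 (n + G.u3) (G.v3 - G.u3)
  rw [e2] at cB
  rw [e3] at cD
  have cAB := it_a_chain_app _ _ _ _ _ _ _ _ _ _ cA cB (pow_le_pow_right₀ hg1 (by omega)) (pow_le_pow_right₀ hg1 (by omega))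
    (pow_le_pow_right₀ hg1 (by omega))
  have cABC := it_a_chain_app _ _ _ _ _ _ _ _ _ _ cAB cC le_rfl (pow_le_pow_right₀ hg1 (by omega))
    (pow_le_pow_right₀ hg1 (by omega))
  have cABCD := it_a_chain_app _ _ _ _ _ _ _ _ _ _ cABC cD (pow_le_pow_right₀ hg1 (by omega)) (pow_le_pow_right₀ hg1 (by omega))
    (pow_le_pow_right₀ hg1 (by omega))
  have hch := it_a_chain_le T h0 h1 l _ _ _ _ _ cABCD
  rw [it_a_chain_sum _ _ _ _ _ _ (T.inf l), it_a_chain_sum _ _ _ _ _ _ (T.inf l), it_a_chain_sum _ _ _ _ _ _ (T.inf l)] at hch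
  have ht := htime (G.g ^ (n + G.v3))
  rw [eI] at sB
  linarith

/-- **LEAF L-256-INT-A-SPLIT.**  OWNER helper239, EST 90 lines.   `I = (v2 - u2) / j2`, `r = v2 - I j2` (`Nat.div_mul_le_self`, `Nat.mod_lt`, `j2 > 0` because `g^j2 = 2 ≠ 1`): `u2 ≤ r < u2 + j2`.
`g^r < g^(u2+j2) = 2 g^u2 ≤ 2 g g^j0` (`hG.eu2`, `min 1 c = 1`);  `g^j0 ≤ g^u2 ≤ g^r`.   `u2 < v2` (else `3 g^j0 < c g^j0 ≤ g^(v2+1) = g g^u2 ≤ g² g^j0`, `g ≤ 11/10`), then `hG.r2 (v2-1)` gives `g^v2 ≤ c g^j0`;  `hG.ev2.1`: `c g^j0 ≤ g g^v2`, `1/g ≥ 1 - η`. -/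
theorem it_a_split (c η : ℝ) (G : ItGr) (hG : G.Ok c η) (hc : 3 < c) (hη : 0 < η) (hη4 : η ≤ 1 / 10) :
    ∃ I r : ℕ, r + I * G.j2 = G.v2 ∧ G.u2 ≤ r ∧ G.g ^ G.v2 ≤ c * G.g ^ G.j0 ∧ c * (1 - η) ≤ G.g ^ G.v2 / G.g ^ G.j0 ∧
      G.g ^ G.v2 / G.g ^ G.j0 ≤ c ∧ 0 ≤ G.g ^ r / G.g ^ G.j0 ∧ G.g ^ r / G.g ^ G.j0 ≤ 2 * (1 + η) := by
  have hg1 := hG.g1
  have hg0 : 0 < G.g := by linarith
  have hgη := hG.gη
  obtain ⟨X, hX⟩ : ∃ X, X = G.g ^ G.j0 := ⟨_, rfl⟩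
  have hX0 : 0 < X := by rw [hX]; exact pow_pos hg0 _
  have hmin : min 1 c = 1 := min_eq_left (by linarith)
  have hmax : max 1 c = c := max_eq_right (by linarith)
  have eu2 := hG.eu2
  have ev2 := hG.ev2
  rw [hmin, one_mul, ← hX] at eu2
  rw [hmax, ← hX] at ev2
  have hj2 : 0 < G.j2 := by
    rcases Nat.eq_zero_or_pos G.j2 with h | h
    · have := hG.two
      rw [h, pow_zero] at this
      norm_num at this
    · exact h
  have huv : G.u2 < G.v2 := by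
    rcases hG.o2.eq_or_lt with h | h
    · exfalso
      have h1 : c * X ≤ G.g * (G.g * X) := by
        calc c * X ≤ G.g ^ (G.v2 + 1) := ev2.1
          _ = G.g * G.g ^ G.u2 := by rw [← h, pow_succ]; ring
          _ ≤ G.g * (G.g * X) := mul_le_mul_of_nonneg_left eu2.2 hg0.le
      have h2 : G.g * G.g ≤ 2 := by nlinarith
      nlinarith
    · exact h
  have hv2 : G.g ^ G.v2 ≤ c * X := by
    have := (hG.r2 (G.v2 - 1) (by omega) (by omega)).2
    rw [hmax, ← hX, Nat.sub_add_cancel (by omega)] at this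
    exact this
  refine ⟨(G.v2 - G.u2) / G.j2, G.v2 - (G.v2 - G.u2) / G.j2 * G.j2, ?_, ?_, ?_, ?_, ?_, ?_, ?_⟩
  · have := Nat.div_mul_le_self (G.v2 - G.u2) G.j2
    omega
  · have := Nat.div_mul_le_self (G.v2 - G.u2) G.j2
    omega
  · rw [← hX]; exact hv2
  · rw [← hX, le_div_iff₀ hX0]
    have h1 : c * X ≤ G.g * G.g ^ G.v2 := by
      calc c * X ≤ G.g ^ (G.v2 + 1) := ev2.1
        _ = G.g * G.g ^ G.v2 := by rw [pow_succ]; ring
    have h2 : 0 < G.g ^ G.v2 := pow_pos hg0 _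
    have h3 : c * X * (1 - η) ≤ G.g * G.g ^ G.v2 * (1 - η) := mul_le_mul_of_nonneg_right h1 (by linarith)
    have h4 : G.g * (1 - η) ≤ 1 := by nlinarith
    have h5 : G.g * (1 - η) * G.g ^ G.v2 ≤ 1 * G.g ^ G.v2 := mul_le_mul_of_nonneg_right h4 h2.le
    nlinarith
  · rw [← hX, div_le_iff₀ hX0]; exact hv2
  · exact div_nonneg (pow_pos hg0 _).le (pow_pos hg0 _).le
  · rw [← hX, div_le_iff₀ hX0]
    have h1 : G.v2 - (G.v2 - G.u2) / G.j2 * G.j2 ≤ G.u2 + G.j2 := by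
      have h2 := Nat.div_add_mod (G.v2 - G.u2) G.j2
      have h3 := Nat.mod_lt (G.v2 - G.u2) hj2
      have h4 : G.j2 * ((G.v2 - G.u2) / G.j2) = (G.v2 - G.u2) / G.j2 * G.j2 := Nat.mul_comm _ _
      omega
    calc G.g ^ (G.v2 - (G.v2 - G.u2) / G.j2 * G.j2) ≤ G.g ^ (G.u2 + G.j2) := pow_le_pow_right₀ hg1.le h1
      _ = 2 * G.g ^ G.u2 := by rw [pow_add, hG.two, mul_comm]
      _ ≤ 2 * (G.g * X) := by linarith [eu2.2]
      _ ≤ 2 * (1 + η) * X := by nlinarith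

/-- (ii) quadratic motion, `c > 3` -/
theorem it_a_act_ii_big (a : ItPar) (ha : a.Ok) (hm : 0 < a.m) (hc3 : 3 < a.c) : ItExit true true false a ((a.c + 1) / 4) := by
  obtain ⟨hc, hd0, hd1, hm0, hm1, hν0, hν1, he0, hB0⟩ := id ha
  have hc1 : 1 ≤ a.c := by linarith
  obtain ⟨k, hkd⟩ : ∃ k : ℝ, k = (a.c + 1) / 4 := ⟨_, rfl⟩
  rw [← hkd]
  have hk : 0 ≤ k := by rw [hkd]; positivity
  obtain ⟨R0, hR0⟩ : ∃ R0 : ℝ, R0 = 1 + k + |(-a.m)| + |(-(1 / 2) : ℝ)| + |a.d| := ⟨_, rfl⟩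
  have hR1 : 1 ≤ R0 := by rw [hR0]; linarith [abs_nonneg (-a.m), abs_nonneg (-(1 / 2) : ℝ), abs_nonneg a.d]
  have hkR : k ≤ R0 := by rw [hR0]; linarith [abs_nonneg (-a.m), abs_nonneg (-(1 / 2) : ℝ), abs_nonneg a.d]
  have hρ1 : |(-a.m)| ≤ R0 := by rw [hR0]; linarith [abs_nonneg (-a.m), abs_nonneg (-(1 / 2) : ℝ), abs_nonneg a.d]
  have hρ2 : |(-(1 / 2) : ℝ)| ≤ R0 := by rw [hR0]; linarith [abs_nonneg (-a.m), abs_nonneg (-(1 / 2) : ℝ), abs_nonneg a.d]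
  have hρ3 : |a.d| ≤ R0 := by rw [hR0]; linarith [abs_nonneg (-a.m), abs_nonneg (-(1 / 2) : ℝ), abs_nonneg a.d]
  have hC : 0 < 300 * R0 * (1 + a.c) := by positivity
  have htime := it_a_depth_flags (av' := true) (cr' := false) (it_cost_time true a ha) (by simp) (by simp)
  refine it_a_engine true true false a k _ _
    (it_a_layer_and (it_a_layer_and (it_a_pay_w true true false a ha) (it_a_pay_q2c a ha hm hc1)) (it_a_pay_qx_d a ha hm))
    (it_a_depth_and htime (it_a_depth_and (it_a_wid_B a ha hm hc3) (it_a_bin_B a ha hm hc3))) ?_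
  intro σ hσ
  obtain ⟨η, hηd⟩ : ∃ η : ℝ, η = min (1 / 10) (σ / (300 * R0 * (1 + a.c))) := ⟨_, rfl⟩
  have hη : 0 < η := by rw [hηd]; exact lt_min (by norm_num) (div_pos hσ hC)
  have hη4 : η ≤ 1 / 10 := by rw [hηd]; exact min_le_left _ _
  have hη1 : η ≤ 1 := by linarith
  have hησ : 300 * R0 * (1 + a.c) * η ≤ σ := by
    have : η ≤ σ / (300 * R0 * (1 + a.c)) := by rw [hηd]; exact min_le_right _ _
    rw [le_div_iff₀ hC] at this
    linarith
  have hu : 0 < (1 + a.c) * η := mul_pos (by linarith) hη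
  have hsm1 : (1 + a.c) * η ≤ R0 * (1 + a.c) * η := by
    rw [mul_assoc]
    exact le_mul_of_one_le_left hu.le hR1
  have hsm2 : η ≤ (1 + a.c) * η := le_mul_of_one_le_left hη.le (by linarith)
  refine ⟨η, hη, fun κ1 hκ1 => ?_⟩
  obtain ⟨G, hG, hGκ, hGJ⟩ := it_a_grid_exists a.c η κ1 (100 * R0 * (1 + a.c)) hc hη hκ1 (by positivity)
  obtain ⟨acc1, hacc1, hLl⟩ := it_a_L_large (6 * Real.log (4 * a.B0 + 4))
  obtain ⟨I, r, hr, hur, hv2, hV1, hV2, hRa, hRb⟩ := it_a_split a.c η G hG hc3 hη hη4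
  have hg0 : 0 < G.g := by linarith [hG.g1]
  refine ⟨G.g - 1, acc1, G.J + G.v3 + G.j0 + G.j2, G.Lam, by linarith [hG.g1], hGκ, hacc1, ?_, ?_, ?_⟩
  · exact ⟨G.g ^ (G.j0 + 0), Finset.mem_image_of_mem _ (Finset.mem_range.2 hG.Jpos)⟩
  · intro l hl
    obtain ⟨n, -, rfl⟩ := Finset.mem_image.1 hl
    exact pow_pos hg0 _
  intro T pk τ κ0 acc hok hlam hacc hquad hadm hLay hDep
  have e1 : 1 + (G.g - 1) = G.g := by ring
  rw [e1] at hLay hDep
  have h0 := hadm.t0.δ0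
  have h1' := hadm.t0.δ1
  have hL : 0 < T.L := it_a_L_pos T h0 h1'
  have hLB : 6 * Real.log (4 * a.B0 + 4) ≤ T.L := hLl T h0 (lt_of_lt_of_le hadm.small hacc)
  have hwg : G.g ^ (G.j0 + G.j2) = (2 : ℝ) * G.g ^ G.j0 := by rw [pow_add, hG.two, mul_comm]
  have hmem : ∀ n < G.J, G.g ^ (G.j0 + n) ∈ pk.Lam := fun n hn => by
    rw [hlam]; exact Finset.mem_image_of_mem _ (Finset.mem_range.2 hn)
  -- the extra terms
  obtain ⟨Y, hY⟩ : ∃ Y : ℕ → ℝ, Y = fun n => 1 / 2 * ∑ i ∈ Finset.range I,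
      (G.g ^ (n + r + i * G.j2) * T.L - T.bm pk.M (G.g ^ (n + r + i * G.j2))) := ⟨_, rfl⟩
  obtain ⟨Z, hZ⟩ : ∃ Z : ℕ → ℝ, Z = fun n => max 0 (T.bm pk.M (G.g ^ (G.j0 + n)) - a.d * G.g ^ (G.j0 + n) * T.L) := ⟨_, rfl⟩
  have hΘ : 0 ≤ 1 * min 1 a.c + 1 / 2 * (max 1 a.c - min 1 a.c) + 0 * (1 + a.c - max 1 a.c) - k * 2 := by
    rw [min_eq_left hc1, max_eq_right hc1, hkd]
    linarith
  have key := it_a_abs3 a.c η G hG hc hη hη1 a.d k (-(2 * a.m + a.d)) 1 (1 / 2) 0 (-a.m) (-(1 / 2)) a.d R0 T.L 2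
    (G.j0 + G.j2) hwg le_rfl le_rfl hL hk hkR hR1 (by norm_num) (by norm_num) (by norm_num) hρ1 hρ2 hρ3 hΘ hGJ
    (fun i => T.hA pk.M (G.g ^ i)) (fun n => T.P.entC (T.O (G.g ^ (G.j0 + n))) T.Cs - Y n)
    (fun n => T.P.entC (T.Wd (G.g ^ (G.j0 + n))) T.Cs + Z n) (fun i => ent_entC_nonneg _ _ _)
    (fun i => it_a_hA_le T h0 h1' pk.M a.B0 G.g hB0 hG.g1.le hadm.t0.bdF hLB i)
    (fun n hn => by
      have h5 := it_a_timeB T pk h0 h1' a.c η a.d G hG hc3 I r hr hur hv2 1 0 (-a.m) a.d n (hmem n hn)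
        (fun i hi => (hLay i (by omega)).1.1) (fun i hi => (hLay i (by omega)).1.2) (fun i hi => (hLay i (by omega)).2)
        (fun i hi => (hDep i (by omega)).2.2.1) ((hDep (G.j0 + n) (by omega)).1 (hmem n hn))
      rw [hY]
      linarith)
    (fun n hn => by
      have h5 := (hDep (G.j0 + n) (by omega)).2.1 (hmem n hn)
      have e2 : (2 : ℝ) * G.g ^ (G.j0 + n) = G.g ^ (n + (G.j0 + G.j2)) := by
        rw [pow_add G.g n (G.j0 + G.j2), hwg, pow_add]; ring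
      rw [e2] at h5
      rw [hZ]
      exact h5)
  obtain ⟨b, hb0, hb1, hB⟩ := it_a_absB a.c η G hG hc3 hη hη1 a.d k R0 T.L hL hk hkR hR1 I r hr hGJ
    (fun i => T.bm pk.M (G.g ^ i)) (fun i => ent_entC_nonneg _ _ _) (fun i hi => (hDep i hi).2.2.2)
  have hnum := it_a_num_B a.c a.d a.m η b (G.g ^ G.v2 / G.g ^ G.j0) (G.g ^ r / G.g ^ G.j0) hc3 hd0 hd1 hm0 hη hη4 hb0 hb1
    hV1 hV2 hRa hRb
  rw [it_a_mean_eq T pk k G hG.g1 hlam]
  have hsplit : (fun n => (T.P.entC (T.O (G.g ^ (G.j0 + n))) T.Cs - k * T.P.entC (T.Wd (G.g ^ (G.j0 + n))) T.Cs)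
        / (G.g ^ (G.j0 + n) * T.L))
      = fun n => ((T.P.entC (T.O (G.g ^ (G.j0 + n))) T.Cs - Y n) - k * (T.P.entC (T.Wd (G.g ^ (G.j0 + n))) T.Cs + Z n))
          / (G.g ^ (G.j0 + n) * T.L) + (Y n + k * Z n) / (G.g ^ (G.j0 + n) * T.L) := by
    funext n
    rw [← add_div]
    congr 1
    ring
  rw [hsplit, it_a_mean_add]
  have hB' : 1 / 2 * ((G.g ^ G.v2 - G.g ^ r) / G.g ^ G.j0) * (1 - b) + k * max 0 (b - a.d) - η
      ≤ itMean G.J (fun n => (Y n + k * Z n) / (G.g ^ (G.j0 + n) * T.L)) := by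
    rw [hY, hZ]
    exact hB
  refine le_trans ?_ (add_le_add key hB')
  rw [min_eq_left hc1, max_eq_right hc1]
  have e3 : (G.g ^ G.v2 - G.g ^ r) / G.g ^ G.j0 = G.g ^ G.v2 / G.g ^ G.j0 - G.g ^ r / G.g ^ G.j0 := sub_div _ _ _
  rw [e3]
  have hrhs : a.rhs true k = 1 + 3 * a.d + a.c - 5 * k := by simp [ItPar.rhs]
  rw [hrhs]
  rw [← hkd] at hnum
  linarith only [hnum, hησ, hsm1, hsm2, hη]

/-- (ii) quadratic motion -/
theorem it_a_act_ii (a : ItPar) (ha : a.Ok) (hm : 0 < a.m) (hc : 1 ≤ a.c) : ItExit true true false a ((a.c + 1) / 4) := by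
  rcases le_or_gt a.c 3 with h | h
  · exact it_a_act_ii_small a ha hm hc h
  · exact it_a_act_ii_big a ha hm h

end Claimed.Agent.R256
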