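import Mathlib

/-!
# Row 256, Sec. 5, ASSEMBLY, file 5: NUM = 05 l.1290-1415, real arithmetic      (block BP-256-INT-ASM, helper239; prefix `it_a_num_`)
`l = l_* = min 1 (d+m)`, `n = n_* = min 1 (d+ν)`, `A = a_* = max (d - cν) 0`.
-/

set_option autoImplicit false
set_option linter.unusedVariables false

namespace Claimed.Agent.R256

/-- (i), `c < 1` -/
theorem it_a_num_ia (c d m ν : ℝ) (hc0 : 0 < c) (hc : c < 1) (hd0 : 0 < d) (hd1 : d ≤ 1) (hm0 : 0 ≤ m) (hm1 : m ≤ 1)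
    (hν0 : 0 ≤ ν) (hν1 : ν ≤ 1) (h : (1 - d) / (1 + c) ≤ m) :
    1 + 3 * d + c ≤ d + (m + min 1 (d + m) + max (m + min 1 (d + m)) (max (d - c * ν) 0 + ν) + min 1 (d + ν)) * c
      + (min 1 (d + m) + max (d - c * ν) 0 + min 1 (d + ν)) * (1 - c) + min 1 (d + ν) * c := by
  rw [div_le_iff₀ (by linarith)] at h
  obtain ⟨l, hl⟩ : ∃ l, l = min 1 (d + m) := ⟨_, rfl⟩
  obtain ⟨n, hn⟩ : ∃ n, n = min 1 (d + ν) := ⟨_, rfl⟩
  obtain ⟨A, hA⟩ : ∃ A, A = max (d - c * ν) 0 := ⟨_, rfl⟩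
  obtain ⟨X, hX⟩ : ∃ X, X = max (m + l) (A + ν) := ⟨_, rfl⟩
  rw [← hl, ← hn, ← hA, ← hX]
  have hA1 : d - c * ν ≤ A := by rw [hA]; exact le_max_left _ _
  have hA0 : 0 ≤ A := by rw [hA]; exact le_max_right _ _
  have hX1 : m + l ≤ X := by rw [hX]; exact le_max_left _ _
  have hX2 : A + ν ≤ X := by rw [hX]; exact le_max_right _ _
  have hld : d ≤ l := by rw [hl]; exact le_min hd1 (by linarith)
  have hcX1 : c * (m + l) ≤ c * X := mul_le_mul_of_nonneg_left hX1 hc0.le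
  have hcX2 : c * (A + ν) ≤ c * X := mul_le_mul_of_nonneg_left hX2 hc0.le
  have hcA : (1 - c) * (d - c * ν) ≤ (1 - c) * A := mul_le_mul_of_nonneg_left hA1 (by linarith)
  rcases le_total ν (1 - d) with hν | hν
  · have hn' : n = d + ν := by rw [hn]; exact min_eq_right (by linarith)
    rw [hn']
    rcases le_total (1 - d) m with hm | hm
    · have hl' : l = 1 := by rw [hl]; exact min_eq_left (by linarith)
      rw [hl'] at hcX1 ⊢
      nlinarith [mul_nonneg hc0.le hm0, mul_nonneg (mul_nonneg hc0.le hc0.le) hν0]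
    · have hl' : l = d + m := by rw [hl]; exact min_eq_right (by linarith)
      rw [hl'] at hcX1 ⊢
      nlinarith [mul_nonneg hc0.le hm0, mul_nonneg (mul_nonneg hc0.le hc0.le) hν0, mul_nonneg (mul_nonneg hc0.le (by linarith : 0 ≤ 1 - c)) hm0]
  · have hn' : n = 1 := by rw [hn]; exact min_eq_left (by linarith)
    rw [hn']
    nlinarith [mul_nonneg hc0.le hm0]

/-- (i), `c ≥ 1` -/
theorem it_a_num_ib (c d m : ℝ) (hc : 1 ≤ c) (hd0 : 0 < d) (hd1 : d ≤ 1) (hm0 : 0 ≤ m) (hm1 : m ≤ 1)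
    (h : (1 - d) / 2 ≤ m) :
    1 + 3 * d + c ≤ d + (2 * m + 2 * min 1 (d + m) + d) * 1 + (2 * m + d) * (c - 1) + d * 1 := by
  rcases le_total (1 - d) m with hm | hm
  · rw [min_eq_left (by linarith)]
    nlinarith
  · rw [min_eq_right (by linarith)]
    nlinarith

/-- (ii), `1 ≤ c ≤ 3` -/
theorem it_a_num_ii (c d m : ℝ) (hc : 1 ≤ c) (hc3 : c ≤ 3) (hd1 : d ≤ 1) (hm0 : 0 ≤ m) :
    1 + 3 * d + c - 5 * ((c + 1) / 4) ≤ d + (-m) * 1 + (-(1 / 2)) * (c - 1) + d * 1 - (c + 1) / 4 * (-(2 * m + d)) := by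
  nlinarith [mul_nonneg (by linarith : 0 ≤ 3 - c) (by linarith : 0 ≤ 1 - d), mul_nonneg (by linarith : 0 ≤ c - 1) hm0]

/-- (iv), `c < 1`, `ν > 0` -/
theorem it_a_num_iva (c d m ν : ℝ) (hc0 : 0 < c) (hc : c < 1) (hd0 : 0 < d) (hd1 : d ≤ 1) (hm0 : 0 ≤ m) (hν0 : 0 ≤ ν)
    (h : 1 - d - c * ν ≤ m) :
    1 + 3 * d + c ≤ d + (2 * min 1 (d + m) + min 1 (d + ν) + ν) * c + (2 * min 1 (d + m) + min 1 (d + ν)) * (1 - c)
      + min 1 (d + ν) * c := by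
  rcases le_total (1 - d) m with hm | hm
  · rw [min_eq_left (by linarith : (1 : ℝ) ≤ d + m)]
    rcases le_total (1 - d) ν with hν | hν
    · rw [min_eq_left (by linarith : (1 : ℝ) ≤ d + ν)]
      nlinarith [mul_nonneg hc0.le hν0]
    · rw [min_eq_right (by linarith : d + ν ≤ 1)]
      nlinarith [mul_nonneg hc0.le hν0]
  · rw [min_eq_right (by linarith : d + m ≤ 1)]
    rcases le_total (1 - d) ν with hν | hν
    · rw [min_eq_left (by linarith : (1 : ℝ) ≤ d + ν)]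
      nlinarith [mul_nonneg hc0.le hν0]
    · rw [min_eq_right (by linarith : d + ν ≤ 1)]
      nlinarith [mul_nonneg hc0.le hν0, mul_nonneg (by linarith : 0 ≤ 1 - c) (by linarith : 0 ≤ 1 - d)]

/-- (v), `c < 1` -/
theorem it_a_num_v2 (c d m : ℝ) (hc0 : 0 < c) (hc : c < 1) (hd0 : 0 < d) (hd1 : d ≤ 1) (hm0 : 0 ≤ m) (hm' : m ≤ 1 - d)
    (h : (1 - d) / (1 + c) ≤ m) :
    1 + 3 * d + c - 4 * c ≤ d + (-m) * c + (2 * d + min 1 (d + m)) * (1 - c) + min 1 (d + m) * c - c * 1 := by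
  rw [div_le_iff₀ (by linarith)] at h
  rw [min_eq_right (by linarith : d + m ≤ 1)]
  have h1 : 0 ≤ (1 - c) * (m * (1 + c) - (1 - d)) := mul_nonneg (by linarith) (by linarith)
  have h2 : 0 ≤ c * c * (1 - d) := mul_nonneg (mul_nonneg hc0.le hc0.le) (by linarith)
  have h3 : 0 < 1 + c := by linarith
  -- S = (2c-1) k0 + (1-c) m,  (1+c) S ≥ 2 c² k0
  have h4 : 0 ≤ (1 + c) * ((2 * c - 1) * (1 - d) + (1 - c) * m) := by nlinarith
  have h5 : 0 ≤ (2 * c - 1) * (1 - d) + (1 - c) * m := nonneg_of_mul_nonneg_right h4 h3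
  nlinarith

/-- (vi) -/
theorem it_a_num_vi (c d m : ℝ) (hc0 : 0 < c) (hc : c < 1) (hm1 : m ≤ 1) (hd : 2 * d ≤ c) :
    1 + 3 * d + c - 4 * 1 ≤ d + (-m) * c + (-m - 1) * (1 - c) + m * c - 1 * 1 := by
  nlinarith [mul_nonneg (by linarith : 0 ≤ 1 - m) (by linarith : 0 ≤ 1 - c)]

end Claimed.Agent.R256
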