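import Claimed.Agent.R256.Int.Asm.Pay
import Claimed.Agent.R256.Int.Asm.Num

/-!
# Row 256, Sec. 5, ASSEMBLY, file 6: the exits that fit the three-range pattern      (block BP-256-INT-ASM, helper239; prefix `it_a_act_`)

Statements = `it_act_*` of `Int/Contract.lean` verbatim.   (ii) with `c > 3` (binary layers): `Int/Asm/Bin.lean`.
-/

set_option autoImplicit false

namespace Claimed.Agent.R256

open Claimed.Agent.R255
open scoped BigOperators
open Classical

/-- (i) quadratic freezing -/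
theorem it_a_act_i (a : ItPar) (ha : a.Ok) (hm : 0 < a.m)
    (h : (a.c < 1 ∧ a.k0 / (1 + a.c) ≤ a.m) ∨ (1 ≤ a.c ∧ a.k0 / 2 ≤ a.m)) : ItExit true true false a 0 := by
  obtain ⟨hc0, hd0, hd1, hm0, hm1, hν0, hν1, -, -⟩ := id ha
  rcases h with ⟨hc, h⟩ | ⟨hc, h⟩
  · refine it_a_three true true false a ha 0 0 0 0 _ _ _ _ le_rfl (by norm_num) (by norm_num) (by norm_num)
      (it_a_pay_q1a a ha hm hc) (it_a_pay_q2a a ha hm hc) (it_a_pay_qx_n a ha hm hc) (it_a_wid_q0 true false a ha)
      (by simp) ?_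
    have := it_a_num_ia a.c a.d a.m a.ν hc0 hc hd0 hd1 hm0 hm1 hν0 hν1 h
    rw [min_eq_right hc.le, max_eq_left hc.le]
    simp only [ItPar.rhs, ItPar.ls, ItPar.ns, ItPar.as, if_true]
    linarith
  · refine it_a_three true true false a ha 0 0 0 0 _ _ _ _ le_rfl (by norm_num) (by norm_num) (by norm_num)
      (it_a_pay_q1b a ha hm) (it_a_pay_q2b a ha hm hc) (it_a_pay_qx_d a ha hm) (it_a_wid_q0 true false a ha)
      (by simp) ?_
    have := it_a_num_ib a.c a.d a.m hc hd0 hd1 hm0 hm1 h
    rw [min_eq_left hc, max_eq_right hc]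
    simp only [ItPar.rhs, ItPar.ls, if_true]
    linarith

/-- (ii) quadratic motion, `1 ≤ c ≤ 3` -/
theorem it_a_act_ii_small (a : ItPar) (ha : a.Ok) (hm : 0 < a.m) (hc : 1 ≤ a.c) (hc3 : a.c ≤ 3) :
    ItExit true true false a ((a.c + 1) / 4) := by
  obtain ⟨hc0, hd0, hd1, hm0, hm1, hν0, hν1, -, -⟩ := id ha
  refine it_a_three true true false a ha ((a.c + 1) / 4) 1 (1 / 2) 0 _ _ _ _ (by positivity) (by norm_num) (by norm_num)
    (by norm_num) (it_a_pay_w true true false a ha) (it_a_pay_q2c a ha hm hc) (it_a_pay_qx_d a ha hm) (it_a_wid_q1 a ha hm) ?_ ?_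
  · rw [min_eq_left hc, max_eq_right hc]
    simp only [if_true]
    linarith
  · have := it_a_num_ii a.c a.d a.m hc hc3 hd1 hm0
    rw [min_eq_left hc, max_eq_right hc]
    simp only [ItPar.rhs, if_true]
    linarith

/-- (iii) quadratic cost one, no spreading, `m = 0` allowed -/
theorem it_a_act_iii (a : ItPar) (ha : a.Ok) (hc : a.c = 1) (hd : a.d ≤ 1 / 4) : ItExit true false false a (1 / 2) := by
  have h2 : ItPay true false false a (min 1 a.c) (max 1 a.c) 0 0 := by
    rw [hc, min_self, max_self]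
    exact it_a_pay_empty _ _ _ _ _ _ _
  refine it_a_three true false false a ha (1 / 2) 1 0 0 _ _ _ _ (by norm_num) (by norm_num) (by norm_num)
    (by norm_num) (it_a_pay_w true false false a ha) h2 (it_a_pay_x0 true false false a ha) (it_a_wid_q0 false false a ha) ?_ ?_
  · rw [hc]; simp
  · rw [hc]
    simp only [ItPar.rhs, if_true, hc, min_self, max_self]
    linarith

/-- (iv) linear freezing -/
theorem it_a_act_iv (a : ItPar) (ha : a.Ok) (hm : 0 < a.m)
    (h : a.k0 ≤ a.m ∨ (a.c < 1 ∧ a.k0 - a.c * a.ν ≤ a.m)) : ItExit false false true a 0 := by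
  obtain ⟨hc0, hd0, hd1, hm0, hm1, hν0, hν1, -, -⟩ := id ha
  have hk0 : a.k0 = 1 - a.d := rfl
  rcases lt_trichotomy a.c 1 with hc | hc | hc
  · have h' : 1 - a.d - a.c * a.ν ≤ a.m := by
      rcases h with h | ⟨-, h⟩
      · rw [hk0] at h
        nlinarith [mul_nonneg hc0.le hν0]
      · rw [hk0] at h; exact h
    rcases hν0.eq_or_lt with hν | hν
    · refine it_a_three false false true a ha 0 0 0 0 _ _ _ _ le_rfl (by norm_num) (by norm_num) (by norm_num)
        (it_a_pay_l1b a ha hm hc hν.symm) (it_a_pay_l2b a ha hm hc hν.symm) (it_a_pay_lx_l a ha hm)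
        (it_a_wid_l false true a ha) (by simp) ?_
      rw [← hν, mul_zero, sub_zero] at h'
      rw [min_eq_right hc.le, max_eq_left hc.le]
      simp only [ItPar.rhs, ItPar.ls]
      rw [min_eq_left (by linarith : (1 : ℝ) ≤ a.d + a.m)]
      simp
      linarith
    · refine it_a_three false false true a ha 0 0 0 0 _ _ _ _ le_rfl (by norm_num) (by norm_num) (by norm_num)
        (it_a_pay_l1a a ha hm hc hν) (it_a_pay_l2a a ha hm hc hν) (it_a_pay_lx_n a ha hm hc hν)
        (it_a_wid_l false true a ha) (by simp) ?_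
      have := it_a_num_iva a.c a.d a.m a.ν hc0 hc hd0 hd1 hm0 hν0 h'
      rw [min_eq_right hc.le, max_eq_left hc.le]
      simp only [ItPar.rhs, ItPar.ls, ItPar.ns]
      simp
      linarith
  · have h' : 1 - a.d ≤ a.m := by
      rcases h with h | ⟨h, -⟩
      · exact h
      · exact absurd h (by rw [hc]; exact lt_irrefl _)
    have h2 : ItPay false false true a (min 1 a.c) (max 1 a.c) 0 0 := by
      rw [hc, min_self, max_self]
      exact it_a_pay_empty _ _ _ _ _ _ _
    refine it_a_three false false true a ha 0 0 0 0 _ _ _ _ le_rfl (by norm_num) (by norm_num) (by norm_num)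
      (it_a_pay_l1c a ha hm hc) h2 (it_a_pay_lx_l a ha hm) (it_a_wid_l false true a ha) (by simp) ?_
    simp only [ItPar.rhs, ItPar.ls, hc, min_self, max_self]
    rw [min_eq_left (by linarith : (1 : ℝ) ≤ a.d + a.m)]
    simp
    linarith
  · have h' : 1 - a.d ≤ a.m := by
      rcases h with h | ⟨h, -⟩
      · exact h
      · exact absurd h (not_lt.2 hc.le)
    refine it_a_three false false true a ha 0 0 0 0 _ _ _ _ le_rfl (by norm_num) (by norm_num) (by norm_num)
      (it_a_pay_l1d a ha hm hc) (it_a_pay_l2d a ha hm hc) (it_a_pay_lx_l a ha hm) (it_a_wid_l false true a ha) (by simp) ?_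
    rw [min_eq_left hc.le, max_eq_right hc.le]
    simp only [ItPar.rhs, ItPar.ls]
    rw [min_eq_left (by linarith : (1 : ℝ) ≤ a.d + a.m)]
    simp
    nlinarith [mul_nonneg hc0.le hm0]

/-- (v) linear motion, `c ≥ 1` -/
theorem it_a_act_v1 (a : ItPar) (ha : a.Ok) (hm : 0 < a.m) (hm' : a.m ≤ a.k0) (hc : 1 ≤ a.c) :
    ItExit false false true a ((1 + a.c) / 2) := by
  obtain ⟨hc0, hd0, hd1, hm0, hm1, hν0, hν1, -, -⟩ := id ha
  have hk0 : a.k0 = 1 - a.d := rfl
  rw [hk0] at hm'
  refine it_a_three false false true a ha ((1 + a.c) / 2) 1 (1 / 2) 0 _ _ _ _ (by positivity) (by norm_num) (by norm_num)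
    (by norm_num) (it_a_pay_w false false true a ha) (it_a_pay_l2e a ha hm hc) (it_a_pay_lx_l a ha hm)
    (it_a_wid_l false true a ha) ?_ ?_
  · rw [min_eq_left hc, max_eq_right hc]
    simp
    linarith
  · rw [min_eq_left hc, max_eq_right hc]
    simp only [ItPar.rhs, ItPar.ls]
    rw [min_eq_right (by linarith : a.d + a.m ≤ 1)]
    simp
    linarith

/-- (v) linear motion, `c < 1` -/
theorem it_a_act_v2 (a : ItPar) (ha : a.Ok) (hm : 0 < a.m) (hm' : a.m ≤ a.k0) (hc : a.c < 1)
    (h : a.k0 / (1 + a.c) ≤ a.m) : ItExit false false true a a.c := by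
  obtain ⟨hc0, hd0, hd1, hm0, hm1, hν0, hν1, -, -⟩ := id ha
  have hk0 : a.k0 = 1 - a.d := rfl
  rw [hk0] at hm' h
  have h2 : ItPay false false true a (min 1 a.c) (max 1 a.c) 0 (2 * a.d + a.ls) := by
    rcases hν0.eq_or_lt with hν | hν
    · exact it_a_pay_l2b a ha hm hc hν.symm
    · refine it_a_pay_mono (it_a_pay_l2a a ha hm hc hν) ?_
      have h1 : a.d ≤ a.ls := le_min hd1 (by linarith)
      have h2 : a.d ≤ a.ns := le_min hd1 (by linarith)
      linarith
  refine it_a_three false false true a ha a.c 1 0 0 _ _ _ _ hc0.le (by norm_num) (by norm_num)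
    (by norm_num) (it_a_pay_w false false true a ha) h2 (it_a_pay_lx_l a ha hm) (it_a_wid_l false true a ha) ?_ ?_
  · rw [min_eq_right hc.le, max_eq_left hc.le]
    simp
  · have := it_a_num_v2 a.c a.d a.m hc0 hc hd0 hd1 hm0 hm' h
    rw [min_eq_right hc.le, max_eq_left hc.le]
    simp only [ItPar.rhs, ItPar.ls]
    simp
    linarith

/-- (vi) linear motion with `2d ≤ c < 1`, speed one, `m > 0` (crossing) -/
theorem it_a_act_vi (a : ItPar) (ha : a.Ok) (hm : 0 < a.m) (hc : a.c < 1) (hd : 2 * a.d ≤ a.c) : ItExit false false true a 1 := by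
  obtain ⟨hc0, hd0, hd1, hm0, hm1, hν0, hν1, -, -⟩ := id ha
  have h3 : ItPay false false true a (max 1 a.c) (1 + a.c) 0 a.m :=
    it_a_pay_mono (it_a_pay_lx_l a ha hm) (le_min hm1 (by linarith))
  refine it_a_three false false true a ha 1 1 1 0 _ _ _ _ zero_le_one (by norm_num) (by norm_num)
    (by norm_num) (it_a_pay_w false false true a ha) (it_a_pay_l2f true a ha hc) h3 (it_a_wid_l false true a ha) ?_ ?_
  · rw [min_eq_right hc.le, max_eq_left hc.le]
    simp
  · have := it_a_num_vi a.c a.d a.m hc0 hc hm1 hd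
    rw [min_eq_right hc.le, max_eq_left hc.le]
    simp only [ItPar.rhs]
    simp
    linarith

/-- (vi) at `m = 0` : no crossing -/
theorem it_a_act_vi0 (a : ItPar) (ha : a.Ok) (hm : a.m = 0) (hc : a.c < 1) (hd : 2 * a.d ≤ a.c) : ItExit false false false a 1 := by
  obtain ⟨hc0, hd0, hd1, hm0, hm1, hν0, hν1, -, -⟩ := id ha
  refine it_a_three false false false a ha 1 1 1 0 _ _ _ _ zero_le_one (by norm_num) (by norm_num)
    (by norm_num) (it_a_pay_w false false false a ha) (it_a_pay_l2f false a ha hc) (it_a_pay_x0 false false false a ha)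
    (it_a_wid_l false false a ha) ?_ ?_
  · rw [min_eq_right hc.le, max_eq_left hc.le]
    simp
  · have := it_a_num_vi a.c a.d a.m hc0 hc hm1 hd
    rw [min_eq_right hc.le, max_eq_left hc.le]
    simp only [ItPar.rhs]
    rw [hm] at this ⊢
    simp
    linarith

end Claimed.Agent.R256
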