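import Mathlib

/-!
# Row 256, Sec. 5, ASSEMBLY, file 2: the geometric grid, means, the abstract three-range inequality      (block BP-256-INT-ASM, helper239; prefix `it_a_`)

PAPER-FREE, Mathlib only (no `Tan`).   Grid points `g^i`, `i : ℕ`, `g = 1 + κ`, `g^j2 = 2`.   The child depths are `λ_n = g^(j0+n)`, `n < J`.
Relative to `λ_n` the three ranges of layers `(g^(n+i), g^(n+i+1))` are `i ∈ [0, v1)`, `[u2, v2)`, `[u3, v3)`: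
`g^v1 ≈ min(1,c) g^j0`, `g^u2 ≈ min(1,c) g^j0`, `g^v2, g^u3 ≈ max(1,c) g^j0`, `g^v3 ≈ (1+c) g^j0` (rounded INWARDS, relative error `≤ g - 1 ≤ η`), truncation `g^(-j0) ≤ η`.
-/

set_option autoImplicit false

namespace Claimed.Agent.R256

open scoped BigOperators

/-- the geometric grid of the assembly; all indices are exponents of `g` -/
structure ItGr where
  g : ℝ
  j2 : ℕ
  j0 : ℕ
  v1 : ℕ
  u2 : ℕ
  v2 : ℕ
  u3 : ℕ
  v3 : ℕ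
  J : ℕ

/-- the properties of the grid for the cost `c` and the tolerance `η` -/
structure ItGr.Ok (G : ItGr) (c η : ℝ) : Prop where
  g1 : 1 < G.g
  gη : G.g ≤ 1 + η
  two : G.g ^ G.j2 = 2
  j0η : 1 ≤ η * G.g ^ G.j0
  o1 : G.v1 ≤ G.u2
  o2 : G.u2 ≤ G.v2
  o3 : G.v2 ≤ G.u3
  o4 : G.u3 ≤ G.v3
  r1 : ∀ i, i < G.v1 → G.g ^ (i + 1) ≤ min 1 c * G.g ^ G.j0
  r2 : ∀ i, G.u2 ≤ i → i < G.v2 → min 1 c * G.g ^ G.j0 ≤ G.g ^ i ∧ G.g ^ (i + 1) ≤ max 1 c * G.g ^ G.j0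
  r3 : ∀ i, G.u3 ≤ i → i < G.v3 → max 1 c * G.g ^ G.j0 ≤ G.g ^ i ∧ G.g ^ (i + 1) ≤ (1 + c) * G.g ^ G.j0
  ev1 : min 1 c * G.g ^ G.j0 ≤ G.g ^ (G.v1 + 1) ∧ G.g ^ G.v1 ≤ min 1 c * G.g ^ G.j0
  eu2 : min 1 c * G.g ^ G.j0 ≤ G.g ^ G.u2 ∧ G.g ^ G.u2 ≤ G.g * (min 1 c * G.g ^ G.j0)
  ev2 : max 1 c * G.g ^ G.j0 ≤ G.g ^ (G.v2 + 1) ∧ G.g ^ G.v2 ≤ G.g * (max 1 c * G.g ^ G.j0)
  eu3 : max 1 c * G.g ^ G.j0 ≤ G.g ^ G.u3 ∧ G.g ^ G.u3 ≤ G.g * (max 1 c * G.g ^ G.j0)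
  ev3 : (1 + c) * G.g ^ G.j0 ≤ G.g ^ (G.v3 + 1) ∧ G.g ^ G.v3 ≤ G.g * ((1 + c) * G.g ^ G.j0)
  Jpos : 0 < G.J

/-- **LEAF L-256-INT-A-KAPPA.**  OWNER helper239, EST 40 lines.   Choose `j2` with `2 ≤ (1+κ1)^j2` (`one_add_mul_le_pow`, Archimedes), `κ = 2^(1/j2) - 1` (`Real.rpow_natCast`, `Real.rpow_mul`); `(1+κ)^j2 = 2 ≤ (1+κ1)^j2` gives `κ ≤ κ1` (`pow_le_pow_iff_left₀`). -/
theorem it_a_kappa (κ1 : ℝ) (h : 0 < κ1) : ∃ (κ : ℝ) (j2 : ℕ), 0 < κ ∧ κ ≤ κ1 ∧ 0 < j2 ∧ (1 + κ) ^ j2 = 2 := by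
  obtain ⟨n, hn⟩ := pow_unbounded_of_one_lt (2 : ℝ) (show (1 : ℝ) < 1 + κ1 by linarith)
  have hn0 : n ≠ 0 := by
    rintro rfl
    norm_num at hn
  have hnR : (0 : ℝ) < n := by exact_mod_cast Nat.pos_of_ne_zero hn0
  have hpow : ((2 : ℝ) ^ (1 / (n : ℝ))) ^ n = 2 := by
    rw [← Real.rpow_natCast, ← Real.rpow_mul (by norm_num), one_div, inv_mul_cancel₀ hnR.ne', Real.rpow_one]
  have h1 : (1 : ℝ) < (2 : ℝ) ^ (1 / (n : ℝ)) := Real.one_lt_rpow (by norm_num) (by positivity)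
  refine ⟨(2 : ℝ) ^ (1 / (n : ℝ)) - 1, n, by linarith, ?_, Nat.pos_of_ne_zero hn0, ?_⟩
  · have h2 : ((2 : ℝ) ^ (1 / (n : ℝ))) ^ n ≤ (1 + κ1) ^ n := by rw [hpow]; exact hn.le
    have h3 := (pow_le_pow_iff_left₀ (by linarith) (by linarith) hn0).1 h2
    linarith
  · rw [add_sub_cancel]
    exact hpow

/-- **LEAF L-256-INT-A-GRID.**  OWNER helper239, EST 150 lines.   `κ ≤ min κ1 η` from `it_a_kappa`, `g = 1 + κ`; `j0` with `max (1/η) (1/min 1 c) ≤ g^j0` (`pow_unbounded_of_one_lt`); `X = g^j0`;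
`f1, f2, f3` = floor exponents of `min 1 c * X`, `max 1 c * X`, `(1+c) * X` (all `≥ 1`: `exists_nat_pow_near`), `f1 ≤ f2 ≤ f3` (`pow_lt_pow_iff_right₀`).
`v1 = f1`, `u2 = f1 + 1`, `v2 = max f2 u2`, `u3 = f2 + 1`, `v3 = max f3 u3`.  If `u2 ≤ i < v2` then `v2 = f2`.   `J = ⌈Cj (v3+j0+j2) / η⌉₊ + 1`. -/
theorem it_a_grid_exists (c η κ1 Cj : ℝ) (hc : 0 < c) (hη : 0 < η) (hκ1 : 0 < κ1) (hCj : 0 ≤ Cj) :
    ∃ G : ItGr, G.Ok c η ∧ G.g - 1 ≤ κ1 ∧ Cj * ((G.v3 : ℝ) + G.j0 + G.j2) ≤ η * G.J := by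
  obtain ⟨κ, j2, hκ0, hκ, hj2, htwo⟩ := it_a_kappa (min κ1 η) (lt_min hκ1 hη)
  obtain ⟨g, hg⟩ : ∃ g, g = 1 + κ := ⟨_, rfl⟩
  rw [← hg] at htwo
  have hg1 : 1 < g := by linarith
  have hg0 : 0 < g := by linarith
  obtain ⟨m1, hm1⟩ : ∃ m, m = min 1 c := ⟨_, rfl⟩
  obtain ⟨m2, hm2⟩ : ∃ m, m = max 1 c := ⟨_, rfl⟩
  have hm10 : 0 < m1 := hm1 ▸ lt_min one_pos hc
  have hm12 : m1 ≤ m2 := by rw [hm1, hm2]; exact (min_le_left _ _).trans (le_max_left _ _)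
  have hm23 : m2 ≤ 1 + c := by rw [hm2]; exact max_le (by linarith) (by linarith)
  obtain ⟨j0, hj0⟩ := pow_unbounded_of_one_lt (max (1 / η) (1 / m1)) hg1
  obtain ⟨X, hX⟩ : ∃ X, X = g ^ j0 := ⟨_, rfl⟩
  rw [← hX] at hj0
  have hX0 : 0 < X := hX ▸ pow_pos hg0 _
  have hηX : 1 ≤ η * X := by
    have := (le_max_left (1 / η) (1 / m1)).trans hj0.le
    rwa [div_le_iff₀ hη, mul_comm] at this
  have hmX : 1 ≤ m1 * X := by
    have := (le_max_right (1 / η) (1 / m1)).trans hj0.le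
    rwa [div_le_iff₀ hm10, mul_comm] at this
  have h12X : m1 * X ≤ m2 * X := mul_le_mul_of_nonneg_right hm12 hX0.le
  have h23X : m2 * X ≤ (1 + c) * X := mul_le_mul_of_nonneg_right hm23 hX0.le
  obtain ⟨f1, a1, b1⟩ := exists_nat_pow_near hmX hg1
  obtain ⟨f2, a2, b2⟩ := exists_nat_pow_near (hmX.trans h12X) hg1
  obtain ⟨f3, a3, b3⟩ := exists_nat_pow_near ((hmX.trans h12X).trans h23X) hg1
  have hmono : ∀ {i j : ℕ}, i ≤ j → g ^ i ≤ g ^ j := fun h => pow_le_pow_right₀ hg1.le h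
  have hf12 : f1 ≤ f2 := by
    have : g ^ f1 < g ^ (f2 + 1) := lt_of_le_of_lt (a1.trans h12X) b2
    have := (pow_lt_pow_iff_right₀ hg1).1 this
    omega
  have hgm : ∀ y : ℝ, 0 ≤ y → y ≤ g * y := fun y hy => le_mul_of_one_le_left hy hg1.le
  obtain ⟨J, hJ⟩ : ∃ J : ℕ, J = ⌈Cj * (((max f3 (f2 + 1) : ℕ) : ℝ) + j0 + j2) / η⌉₊ + 1 := ⟨_, rfl⟩
  refine ⟨⟨g, j2, j0, f1, f1 + 1, max f2 (f1 + 1), f2 + 1, max f3 (f2 + 1), J⟩, ?_, ?_, ?_⟩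
  · refine ⟨hg1, ?_, htwo, ?_, ?_, ?_, ?_, ?_, ?_, ?_, ?_, ?_, ?_, ?_, ?_, ?_, ?_⟩
    · show g ≤ 1 + η
      linarith [hκ.trans (min_le_right κ1 η)]
    · show 1 ≤ η * g ^ j0
      rw [← hX]; exact hηX
    · show f1 ≤ f1 + 1
      omega
    · exact le_max_right _ _
    · show max f2 (f1 + 1) ≤ f2 + 1
      exact max_le (by omega) (by omega)
    · exact le_max_right _ _
    · intro i hi
      show g ^ (i + 1) ≤ min 1 c * g ^ j0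
      rw [← hX, ← hm1]
      have hi' : i < f1 := hi
      exact (hmono (by omega)).trans a1
    · intro i hi1 hi2
      show min 1 c * g ^ j0 ≤ g ^ i ∧ g ^ (i + 1) ≤ max 1 c * g ^ j0
      rw [← hX, ← hm1, ← hm2]
      have hi1' : f1 + 1 ≤ i := hi1
      have hi2' : i < max f2 (f1 + 1) := hi2
      have hi3 : i < f2 := by
        rcases lt_max_iff.1 hi2' with h | h
        · exact h
        · omega
      exact ⟨b1.le.trans (hmono hi1'), (hmono (by omega)).trans a2⟩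
    · intro i hi1 hi2
      show max 1 c * g ^ j0 ≤ g ^ i ∧ g ^ (i + 1) ≤ (1 + c) * g ^ j0
      rw [← hX, ← hm2]
      have hi1' : f2 + 1 ≤ i := hi1
      have hi2' : i < max f3 (f2 + 1) := hi2
      have hi3 : i < f3 := by
        rcases lt_max_iff.1 hi2' with h | h
        · exact h
        · omega
      exact ⟨b2.le.trans (hmono hi1'), (hmono (by omega)).trans a3⟩
    · show min 1 c * g ^ j0 ≤ g ^ (f1 + 1) ∧ g ^ f1 ≤ min 1 c * g ^ j0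
      rw [← hX, ← hm1]
      exact ⟨b1.le, a1⟩
    · show min 1 c * g ^ j0 ≤ g ^ (f1 + 1) ∧ g ^ (f1 + 1) ≤ g * (min 1 c * g ^ j0)
      rw [← hX, ← hm1]
      refine ⟨b1.le, ?_⟩
      rw [pow_succ, mul_comm]
      exact mul_le_mul_of_nonneg_left a1 hg0.le
    · show max 1 c * g ^ j0 ≤ g ^ (max f2 (f1 + 1) + 1) ∧ g ^ (max f2 (f1 + 1)) ≤ g * (max 1 c * g ^ j0)
      rw [← hX, ← hm2]
      refine ⟨b2.le.trans (hmono (by have := le_max_left f2 (f1 + 1); omega)), ?_⟩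
      rcases max_cases f2 (f1 + 1) with ⟨h, -⟩ | ⟨h, -⟩
      · rw [h]
        exact a2.trans (hgm _ (le_trans (by positivity) h12X))
      · rw [h, pow_succ, mul_comm]
        exact mul_le_mul_of_nonneg_left (a1.trans h12X) hg0.le
    · show max 1 c * g ^ j0 ≤ g ^ (f2 + 1) ∧ g ^ (f2 + 1) ≤ g * (max 1 c * g ^ j0)
      rw [← hX, ← hm2]
      refine ⟨b2.le, ?_⟩
      rw [pow_succ, mul_comm]
      exact mul_le_mul_of_nonneg_left a2 hg0.le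
    · show (1 + c) * g ^ j0 ≤ g ^ (max f3 (f2 + 1) + 1) ∧ g ^ (max f3 (f2 + 1)) ≤ g * ((1 + c) * g ^ j0)
      rw [← hX]
      refine ⟨b3.le.trans (hmono (by have := le_max_left f3 (f2 + 1); omega)), ?_⟩
      rcases max_cases f3 (f2 + 1) with ⟨h, -⟩ | ⟨h, -⟩
      · rw [h]
        exact a3.trans (hgm _ (by positivity))
      · rw [h, pow_succ, mul_comm]
        exact mul_le_mul_of_nonneg_left (a2.trans h23X) hg0.le
    · show 0 < J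
      omega
  · show g - 1 ≤ κ1
    linarith [hκ.trans (min_le_left κ1 η)]
  · show Cj * (((max f3 (f2 + 1) : ℕ) : ℝ) + j0 + j2) ≤ η * J
    have h1 := Nat.le_ceil (Cj * (((max f3 (f2 + 1) : ℕ) : ℝ) + j0 + j2) / η)
    have h2 : ((⌈Cj * (((max f3 (f2 + 1) : ℕ) : ℝ) + j0 + j2) / η⌉₊ : ℕ) : ℝ) ≤ J := by
      rw [hJ]
      push_cast
      linarith
    have h3 := h1.trans h2
    rw [div_le_iff₀ hη] at h3
    linarith

/-- mean of a sequence over `n < J` -/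
noncomputable def itMean (J : ℕ) (f : ℕ → ℝ) : ℝ := (∑ n ∈ Finset.range J, f n) / J

theorem it_a_grid_eqns_cite : True := by
  have := @itMean.eq_1
  trivial

/-- the shifted sums differ by at most `2 K s` -/
theorem it_a_m_sum (Ψ : ℕ → ℝ) (K : ℝ) (hΨ : ∀ i, |Ψ i| ≤ K) (s J : ℕ) :
    |∑ n ∈ Finset.range J, Ψ (n + s) - ∑ n ∈ Finset.range J, Ψ n| ≤ 2 * K * s := by
  induction s with
  | zero => simp
  | succ s ih =>
    have e1 : ∑ n ∈ Finset.range J, Ψ (n + (s + 1)) + Ψ s = ∑ n ∈ Finset.range J, Ψ (n + s) + Ψ (J + s) := by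
      have h1 := Finset.sum_range_succ' (fun n => Ψ (n + s)) J
      have h2 := Finset.sum_range_succ (fun n => Ψ (n + s)) J
      simp only [zero_add] at h1
      have h3 : ∀ n, Ψ (n + 1 + s) = Ψ (n + (s + 1)) := fun n => by congr 1; omega
      simp only [h3] at h1
      rw [← h1, h2]
    have e2 : ∑ n ∈ Finset.range J, Ψ (n + (s + 1)) - ∑ n ∈ Finset.range J, Ψ n
        = (∑ n ∈ Finset.range J, Ψ (n + s) - ∑ n ∈ Finset.range J, Ψ n) + (Ψ (J + s) - Ψ s) := by linarith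
    rw [e2]
    refine (abs_add_le _ _).trans ?_
    have h4 : |Ψ (J + s) - Ψ s| ≤ K + K := (abs_sub _ _).trans (add_le_add (hΨ _) (hΨ _))
    push_cast
    linarith

/-- **LEAF L-256-INT-A-SHIFT.**  OWNER helper239, EST 50 lines.   Induction on `s`: `∑_{n<J} Ψ(n+s+1) - ∑_{n<J} Ψ(n+s) = Ψ(J+s) - Ψ(s)` (`Finset.sum_range_succ`, `Finset.sum_range_succ'`). -/
theorem it_a_shift (Ψ : ℕ → ℝ) (K : ℝ) (hΨ : ∀ i, |Ψ i| ≤ K) (s J : ℕ) (hJ : 0 < J) :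
    |itMean J (fun n => Ψ (n + s)) - itMean J Ψ| ≤ 2 * K * s / J := by
  have hJR : (0 : ℝ) < J := by exact_mod_cast hJ
  unfold itMean
  rw [← sub_div, abs_div, abs_of_pos hJR]
  exact div_le_div_of_nonneg_right (it_a_m_sum Ψ K hΨ s J) hJR.le

/-- **LEAF L-256-INT-A-COMB.**  OWNER helper239, EST 70 lines.   Mean of a finite linear combination of shifted bounded sequences: `itMean` is monotone and linear (`Finset.sum_le_sum`, `Finset.sum_comm`, `Finset.mul_sum`), then `it_a_shift` termwise (`abs_le`, sign of `cf r`). -/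
theorem it_a_mean_comb {ι : Type} (R : Finset ι) (cf : ι → ℝ) (sh : ι → ℕ) (Ψ : ι → ℕ → ℝ) (K : ℝ)
    (hΨ : ∀ r ∈ R, ∀ i, |Ψ r i| ≤ K) (J : ℕ) (hJ : 0 < J) (X : ℕ → ℝ) (C0 : ℝ)
    (hX : ∀ n < J, C0 + ∑ r ∈ R, cf r * Ψ r (n + sh r) ≤ X n) :
    C0 + ∑ r ∈ R, cf r * itMean J (Ψ r) - ∑ r ∈ R, |cf r| * (2 * K * sh r / J) ≤ itMean J X := by
  have hJR : (0 : ℝ) < J := by exact_mod_cast hJ
  have h1 : itMean J (fun n => C0 + ∑ r ∈ R, cf r * Ψ r (n + sh r)) ≤ itMean J X := by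
    unfold itMean
    exact div_le_div_of_nonneg_right (Finset.sum_le_sum fun n hn => hX n (Finset.mem_range.1 hn)) hJR.le
  have h2 : itMean J (fun n => C0 + ∑ r ∈ R, cf r * Ψ r (n + sh r)) = C0 + ∑ r ∈ R, cf r * itMean J (fun n => Ψ r (n + sh r)) := by
    unfold itMean
    rw [Finset.sum_add_distrib, Finset.sum_const, Finset.card_range, nsmul_eq_mul, Finset.sum_comm, add_div,
      mul_div_cancel_left₀ _ hJR.ne', Finset.sum_div]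
    congr 1
    refine Finset.sum_congr rfl fun r _ => ?_
    rw [← Finset.mul_sum, mul_div_assoc]
  have h3 : ∀ r ∈ R, cf r * itMean J (Ψ r) - |cf r| * (2 * K * sh r / J) ≤ cf r * itMean J (fun n => Ψ r (n + sh r)) := by
    intro r hr
    have h4 := it_a_shift (Ψ r) K (hΨ r hr) (sh r) J hJ
    have h5 : |cf r * (itMean J (fun n => Ψ r (n + sh r)) - itMean J (Ψ r))| ≤ |cf r| * (2 * K * sh r / J) := by
      rw [abs_mul]
      exact mul_le_mul_of_nonneg_left h4 (abs_nonneg _)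
    have h6 := (abs_le.1 h5).1
    linarith
  have h7 := Finset.sum_le_sum h3
  rw [Finset.sum_sub_distrib] at h7
  linarith

theorem it_a_b_lo {ρ e R B : ℝ} (h1 : |ρ| ≤ R) (h2 : |e| ≤ B) : -(R * B) ≤ ρ * e := by
  have : |ρ * e| ≤ R * B := by
    rw [abs_mul]
    exact mul_le_mul h1 h2 (abs_nonneg _) ((abs_nonneg _).trans h1)
  exact (abs_le.1 this).1

/-- the error budget of `it_a_abs3` -/
theorem it_a_b_fin (c1 c2 c3 η d k ω θ1 θ2 θ3 ρ1 ρ2 ρ3 R0 w D1 D2 D3 Pb S : ℝ)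
    (hη : 0 < η) (hη1 : η ≤ 1) (hc3 : 1 ≤ c3) (hk : 0 ≤ k) (hkR : k ≤ R0) (hR0 : 1 ≤ R0)
    (hθ1 : 0 ≤ θ1 ∧ θ1 ≤ 1) (hθ2 : 0 ≤ θ2 ∧ θ2 ≤ 1) (hθ3 : 0 ≤ θ3 ∧ θ3 ≤ 1)
    (hρ1 : |ρ1| ≤ R0) (hρ2 : |ρ2| ≤ R0) (hρ3 : |ρ3| ≤ R0)
    (hΘ : 0 ≤ θ1 * c1 + θ2 * (c2 - c1) + θ3 * (c3 - c2) - k * w)
    (he1 : |D1 - c1| ≤ 2 * (c3 * η)) (he2 : |D2 - (c2 - c1)| ≤ 2 * (c3 * η)) (he3 : |D3 - (c3 - c2)| ≤ 2 * (c3 * η))
    (hP0 : 0 ≤ Pb) (hP7 : Pb ≤ 7) (hS : S ≤ 2 * η) :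
    d + ρ1 * c1 + ρ2 * (c2 - c1) + ρ3 * (c3 - c2) - k * ω - 200 * R0 * c3 * η ≤
      ((d - η) + (ρ1 - η) * D1 + (ρ2 - η) * D2 + (ρ3 - η) * D3 - k * (ω + η))
        + (θ1 * D1 + θ2 * D2 + θ3 * D3 - k * w) * Pb - S := by
  obtain ⟨T, hT⟩ : ∃ T, T = c3 * η := ⟨_, rfl⟩
  rw [← hT] at he1 he2 he3
  have hTη : η ≤ T := by rw [hT]; exact le_mul_of_one_le_left hη.le hc3
  have hT0 : 0 ≤ T := by linarith
  have hRT : T ≤ R0 * T := le_mul_of_one_le_left hT0 hR0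
  have a1 := it_a_b_lo hρ1 he1
  have a2 := it_a_b_lo hρ2 he2
  have a3 := it_a_b_lo hρ3 he3
  have b1 := it_a_b_lo (R := 1) (abs_le.2 ⟨by linarith [hθ1.1], hθ1.2⟩) he1
  have b2 := it_a_b_lo (R := 1) (abs_le.2 ⟨by linarith [hθ2.1], hθ2.2⟩) he2
  have b3 := it_a_b_lo (R := 1) (abs_le.2 ⟨by linarith [hθ3.1], hθ3.2⟩) he3
  have u1 := (abs_le.1 he1).2
  have u2 := (abs_le.1 he2).2
  have u3 := (abs_le.1 he3).2
  have hsum : η * (D1 + D2 + D3) ≤ 7 * T := by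
    have h1 : D1 + D2 + D3 ≤ 6 * T + c3 := by linarith
    have h2 : η * (D1 + D2 + D3) ≤ η * (6 * T + c3) := mul_le_mul_of_nonneg_left h1 hη.le
    have h3 : η * (6 * T) ≤ 1 * (6 * T) := mul_le_mul_of_nonneg_right hη1 (by linarith)
    have h4 : η * c3 = T := by rw [hT]; ring
    linarith
  have hZ : -(6 * T) ≤ θ1 * D1 + θ2 * D2 + θ3 * D3 - k * w := by linarith
  have hZP : -(42 * T) ≤ (θ1 * D1 + θ2 * D2 + θ3 * D3 - k * w) * Pb := by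
    have h1 : 0 ≤ (θ1 * D1 + θ2 * D2 + θ3 * D3 - k * w + 6 * T) * Pb := mul_nonneg (by linarith) hP0
    have h2 : 0 ≤ 6 * T * (7 - Pb) := mul_nonneg (by linarith) (by linarith)
    linarith
  have hkη : k * η ≤ R0 * T := by
    calc k * η ≤ R0 * η := mul_le_mul_of_nonneg_right hkR hη.le
      _ ≤ R0 * T := mul_le_mul_of_nonneg_left hTη (by linarith)
  have hfin : 200 * R0 * c3 * η = 200 * (R0 * T) := by rw [hT]; ring
  rw [hfin]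
  linarith

/-- **LEAF L-256-INT-A-ABS3 (the abstract three-range inequality).**  OWNER helper239, EST 250 lines.    `X = g^j0`, `V_r = g^(v_r)/X`, `U_r = g^(u_r)/X`, `Ψ i = A i / (g^i L) ∈ [0,7]`.   Dividing `hE - k hW` by `g^(j0+n) L`:
`(E n - k W n)/(g^(j0+n) L) ≥ (d-η) + ∑_r (ρ_r-η)(V_r-U_r) - k(ω+η) + ∑_r θ_r (V_r Ψ(n+v_r) - U_r Ψ(n+u_r)) - k w Ψ(n+jw)`;   `it_a_mean_comb` with `ι = Fin 7`, all `Ψ r = Ψ`, `K = 7`.
ERROR BUDGET (`c3 = 1+c`):  `|V_1-c1| ≤ c1 η`, `U_1 ≤ η`, `|U_2-c1| ≤ c1 η`, `|V_2-c2|, |U_3-c2| ≤ c2 η`, `|V_3-c3| ≤ c3 η` (from `ev*`, `eu*`, `gη`, `j0η`);   `ρ`-terms `≤ 6 R0 c3 η`;  `η ∑ (V_r-U_r) ≤ η V_3 ≤ 2 c3 η`;  `k η ≤ R0 η`;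
total coefficient of `Ψ̄` is `≥ hΘ - 6 c3 η`, `Ψ̄ ∈ [0,7]`: `≥ - 42 c3 η`;  shifts: `∑ |cf| 14 sh / J ≤ 14 (12 c3 + 2 R0)(v3+j0+j2)/J ≤ 2 η` by `hJ`.   Sum `≤ 54 R0 c3 η`. -/
theorem it_a_abs3 (c η : ℝ) (G : ItGr) (hG : G.Ok c η) (hc : 0 < c) (hη : 0 < η) (hη1 : η ≤ 1)
    (d k ω θ1 θ2 θ3 ρ1 ρ2 ρ3 R0 L w : ℝ) (jw : ℕ) (hw : G.g ^ jw = w * G.g ^ G.j0) (hw2 : w ≤ 2)
    (hjw : jw ≤ G.j0 + G.j2) (hL : 0 < L) (hk : 0 ≤ k) (hkR : k ≤ R0) (hR0 : 1 ≤ R0)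
    (hθ1 : 0 ≤ θ1 ∧ θ1 ≤ 1) (hθ2 : 0 ≤ θ2 ∧ θ2 ≤ 1) (hθ3 : 0 ≤ θ3 ∧ θ3 ≤ 1)
    (hρ1 : |ρ1| ≤ R0) (hρ2 : |ρ2| ≤ R0) (hρ3 : |ρ3| ≤ R0)
    (hΘ : 0 ≤ θ1 * min 1 c + θ2 * (max 1 c - min 1 c) + θ3 * (1 + c - max 1 c) - k * w)
    (hJ : 100 * R0 * (1 + c) * ((G.v3 : ℝ) + G.j0 + G.j2) ≤ η * G.J)
    (A E W : ℕ → ℝ) (hA0 : ∀ i, 0 ≤ A i) (hA1 : ∀ i, A i ≤ 7 * G.g ^ i * L)
    (hE : ∀ n < G.J, (d - η) * G.g ^ (G.j0 + n) * L
        + (θ1 * (A (n + G.v1) - A n) + (ρ1 - η) * (G.g ^ (n + G.v1) - G.g ^ n) * L)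
        + (θ2 * (A (n + G.v2) - A (n + G.u2)) + (ρ2 - η) * (G.g ^ (n + G.v2) - G.g ^ (n + G.u2)) * L)
        + (θ3 * (A (n + G.v3) - A (n + G.u3)) + (ρ3 - η) * (G.g ^ (n + G.v3) - G.g ^ (n + G.u3)) * L) ≤ E n)
    (hW : ∀ n < G.J, W n ≤ A (n + jw) + (ω + η) * G.g ^ (G.j0 + n) * L) :
    d + ρ1 * min 1 c + ρ2 * (max 1 c - min 1 c) + ρ3 * (1 + c - max 1 c) - k * ω - 200 * R0 * (1 + c) * η
      ≤ itMean G.J (fun n => (E n - k * W n) / (G.g ^ (G.j0 + n) * L)) := by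
  have hg1 : 1 < G.g := hG.g1
  have hg0 : 0 < G.g := by linarith
  have hgη : G.g ≤ 1 + η := hG.gη
  obtain ⟨X, hX⟩ : ∃ X, X = G.g ^ G.j0 := ⟨_, rfl⟩
  have hX0 : 0 < X := hX ▸ pow_pos hg0 _
  have hJR : (0 : ℝ) < G.J := by exact_mod_cast hG.Jpos
  obtain ⟨c1, hc1⟩ : ∃ m, m = min 1 c := ⟨_, rfl⟩
  obtain ⟨c2, hc2⟩ : ∃ m, m = max 1 c := ⟨_, rfl⟩
  obtain ⟨c3, hc3⟩ : ∃ m, m = 1 + c := ⟨_, rfl⟩
  have hc10 : 0 < c1 := hc1 ▸ lt_min one_pos hc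
  have hc12 : c1 ≤ c2 := by rw [hc1, hc2]; exact (min_le_left _ _).trans (le_max_left _ _)
  have hc23 : c2 ≤ c3 := by rw [hc2, hc3]; exact max_le (by linarith) (by linarith)
  have hc31 : 1 ≤ c3 := by rw [hc3]; linarith
  -- the normalised quantities
  obtain ⟨Ψ, hΨ⟩ : ∃ Ψ : ℕ → ℝ, Ψ = fun i => A i / (G.g ^ i * L) := ⟨_, rfl⟩
  obtain ⟨V, hV⟩ : ∃ V : ℕ → ℝ, V = fun v => G.g ^ v / X := ⟨_, rfl⟩
  have hpos : ∀ i : ℕ, 0 < G.g ^ i * L := fun i => mul_pos (pow_pos hg0 _) hL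
  have hΨ0 : ∀ i, 0 ≤ Ψ i := fun i => by
    rw [hΨ]
    exact div_nonneg (hA0 i) (hpos i).le
  have hΨ7 : ∀ i, Ψ i ≤ 7 := fun i => by
    rw [hΨ]
    show A i / (G.g ^ i * L) ≤ 7
    rw [div_le_iff₀ (hpos i)]
    linarith [hA1 i]
  have hΨabs : ∀ i, |Ψ i| ≤ 7 := fun i => abs_le.2 ⟨by linarith [hΨ0 i], hΨ7 i⟩
  have hAe : ∀ n v, A (n + v) = V v * Ψ (n + v) * (G.g ^ (G.j0 + n) * L) := by
    intro n v
    rw [hV, hΨ, hX]
    show A (n + v) = G.g ^ v / G.g ^ G.j0 * (A (n + v) / (G.g ^ (n + v) * L)) * (G.g ^ (G.j0 + n) * L)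
    have h1 := pow_pos hg0 v
    have h2 := pow_pos hg0 n
    have h3 := pow_pos hg0 G.j0
    rw [pow_add, pow_add]
    field_simp
  have hge : ∀ n v, G.g ^ (n + v) * L = V v * (G.g ^ (G.j0 + n) * L) := by
    intro n v
    rw [hV, hX]
    show G.g ^ (n + v) * L = G.g ^ v / G.g ^ G.j0 * (G.g ^ (G.j0 + n) * L)
    have h3 := pow_pos hg0 G.j0
    rw [pow_add, pow_add]
    field_simp
  have hVw : V jw = w := by
    rw [hV]
    show G.g ^ jw / X = w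
    rw [hw, ← hX]
    field_simp
  have hVX : ∀ v, G.g ^ v = V v * X := fun v => by
    rw [hV]
    show G.g ^ v = G.g ^ v / X * X
    field_simp
  have hV0 : ∀ v, 0 < V v := fun v => by
    rw [hV]
    exact div_pos (pow_pos hg0 _) hX0
  -- the bounds on the end points
  have lo : ∀ (cc : ℝ) (v : ℕ), 0 ≤ cc → cc * X ≤ G.g ^ (v + 1) → cc * (1 - η) ≤ V v := by
    intro cc v hcc h
    rw [pow_succ, hVX v] at h
    have h1 : cc ≤ V v * G.g := by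
      have : cc * X ≤ (V v * G.g) * X := by linarith
      exact le_of_mul_le_mul_right this hX0
    have h2 : cc ≤ V v * (1 + η) := h1.trans (mul_le_mul_of_nonneg_left hgη (hV0 v).le)
    have h3 : cc * (1 - η) ≤ V v * (1 + η) * (1 - η) := mul_le_mul_of_nonneg_right h2 (by linarith)
    have h4 : V v * (1 + η) * (1 - η) = V v - V v * (η * η) := by ring
    have h5 := mul_pos (hV0 v) (mul_pos hη hη)
    linarith
  have hi : ∀ (cc : ℝ) (v : ℕ), 0 ≤ cc → G.g ^ v ≤ G.g * (cc * X) → V v ≤ (1 + η) * cc := by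
    intro cc v hcc h
    rw [hVX v] at h
    have h1 : V v ≤ G.g * cc := by
      have : V v * X ≤ (G.g * cc) * X := by linarith
      exact le_of_mul_le_mul_right this hX0
    exact h1.trans (mul_le_mul_of_nonneg_right hgη hcc)
  have lo' : ∀ (cc : ℝ) (v : ℕ), cc * X ≤ G.g ^ v → cc ≤ V v := by
    intro cc v h
    rw [hVX v] at h
    exact le_of_mul_le_mul_right h hX0
  have hi' : ∀ (cc : ℝ) (v : ℕ), G.g ^ v ≤ cc * X → V v ≤ cc := by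
    intro cc v h
    rw [hVX v] at h
    exact le_of_mul_le_mul_right h hX0
  have ev1 := hG.ev1
  have eu2 := hG.eu2
  have ev2 := hG.ev2
  have eu3 := hG.eu3
  have ev3 := hG.ev3
  rw [← hX, ← hc1] at ev1 eu2
  rw [← hX, ← hc2] at ev2 eu3
  rw [← hX, ← hc3] at ev3
  have V1lo := lo c1 G.v1 hc10.le ev1.1
  have V1hi := hi' c1 G.v1 ev1.2
  have U2lo := lo' c1 G.u2 eu2.1
  have U2hi := hi c1 G.u2 hc10.le eu2.2
  have V2lo := lo c2 G.v2 (by linarith) ev2.1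
  have V2hi := hi c2 G.v2 (by linarith) ev2.2
  have U3lo := lo' c2 G.u3 eu3.1
  have U3hi := hi c2 G.u3 (by linarith) eu3.2
  have V3lo := lo c3 G.v3 (by linarith) ev3.1
  have V3hi := hi c3 G.v3 (by linarith) ev3.2
  have U1hi : V 0 ≤ η := by
    have h1 := hG.j0η
    rw [← hX] at h1
    rw [hV]
    show G.g ^ 0 / X ≤ η
    rw [pow_zero, div_le_iff₀ hX0]
    exact h1
  have U1lo := hV0 0
  have hc1η : c1 * η ≤ c3 * η := mul_le_mul_of_nonneg_right (hc12.trans hc23) hη.le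
  have hc2η : c2 * η ≤ c3 * η := mul_le_mul_of_nonneg_right hc23 hη.le
  have hηc3 : η ≤ c3 * η := le_mul_of_one_le_left hη.le hc31
  have hc3η1 : c3 * η ≤ c3 := mul_le_of_le_one_right (by linarith) hη1
  have he1 : |V G.v1 - V 0 - c1| ≤ 2 * (c3 * η) := abs_le.2 ⟨by linarith, by linarith⟩
  have he2 : |V G.v2 - V G.u2 - (c2 - c1)| ≤ 2 * (c3 * η) := abs_le.2 ⟨by linarith, by linarith⟩
  have he3 : |V G.v3 - V G.u3 - (c3 - c2)| ≤ 2 * (c3 * η) := abs_le.2 ⟨by linarith, by linarith⟩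
  -- the linear combination
  obtain ⟨cf, hcf⟩ : ∃ cf : Fin 7 → ℝ, cf = ![θ1 * V G.v1, -(θ1 * V 0), θ2 * V G.v2, -(θ2 * V G.u2), θ3 * V G.v3, -(θ3 * V G.u3), -(k * w)] := ⟨_, rfl⟩
  obtain ⟨sh, hsh⟩ : ∃ sh : Fin 7 → ℕ, sh = ![G.v1, 0, G.v2, G.u2, G.v3, G.u3, jw] := ⟨_, rfl⟩
  obtain ⟨C0, hC0⟩ : ∃ C0, C0 = (d - η) + (ρ1 - η) * (V G.v1 - V 0) + (ρ2 - η) * (V G.v2 - V G.u2) + (ρ3 - η) * (V G.v3 - V G.u3) - k * (ω + η) := ⟨_, rfl⟩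
  have hXn : ∀ n < G.J, C0 + ∑ r ∈ (Finset.univ : Finset (Fin 7)), cf r * (fun _ : Fin 7 => Ψ) r (n + sh r) ≤ (fun n => (E n - k * W n) / (G.g ^ (G.j0 + n) * L)) n := by
    intro n hn
    show C0 + ∑ r : Fin 7, cf r * Ψ (n + sh r) ≤ (E n - k * W n) / (G.g ^ (G.j0 + n) * L)
    rw [le_div_iff₀ (hpos _), Fin.sum_univ_seven, hcf, hsh]
    show (C0 + (θ1 * V G.v1 * Ψ (n + G.v1) + -(θ1 * V 0) * Ψ (n + 0) + θ2 * V G.v2 * Ψ (n + G.v2) + -(θ2 * V G.u2) * Ψ (n + G.u2)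
      + θ3 * V G.v3 * Ψ (n + G.v3) + -(θ3 * V G.u3) * Ψ (n + G.u3) + -(k * w) * Ψ (n + jw))) * (G.g ^ (G.j0 + n) * L) ≤ E n - k * W n
    have h1 := hE n hn
    have h3 : k * W n ≤ k * (A (n + jw) + (ω + η) * G.g ^ (G.j0 + n) * L) := mul_le_mul_of_nonneg_left (hW n hn) hk
    have a0 : A n = V 0 * Ψ (n + 0) * (G.g ^ (G.j0 + n) * L) := hAe n 0
    have g0 : G.g ^ n * L = V 0 * (G.g ^ (G.j0 + n) * L) := hge n 0
    have t1 : (G.g ^ (n + G.v1) - G.g ^ n) * L = (V G.v1 - V 0) * (G.g ^ (G.j0 + n) * L) := by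
      rw [sub_mul, hge n G.v1, g0]
      ring
    have t2 : (G.g ^ (n + G.v2) - G.g ^ (n + G.u2)) * L = (V G.v2 - V G.u2) * (G.g ^ (G.j0 + n) * L) := by
      rw [sub_mul, hge n G.v2, hge n G.u2]
      ring
    have t3 : (G.g ^ (n + G.v3) - G.g ^ (n + G.u3)) * L = (V G.v3 - V G.u3) * (G.g ^ (G.j0 + n) * L) := by
      rw [sub_mul, hge n G.v3, hge n G.u3]
      ring
    rw [mul_assoc (ρ1 - η), mul_assoc (ρ2 - η), mul_assoc (ρ3 - η), t1, t2, t3, hAe n G.v1, a0, hAe n G.v2, hAe n G.u2, hAe n G.v3, hAe n G.u3] at h1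
    rw [hAe n jw, hVw] at h3
    rw [hC0]
    obtain ⟨lam, hlam⟩ : ∃ lam, lam = G.g ^ (G.j0 + n) * L := ⟨_, rfl⟩
    have hl2 : ∀ z : ℝ, z * G.g ^ (G.j0 + n) * L = z * lam := fun z => by rw [hlam]; ring
    rw [hl2] at h1 h3
    rw [← hlam] at h1 h3 ⊢
    linarith
  have main := it_a_mean_comb Finset.univ cf sh (fun _ => Ψ) 7 (fun _ _ i => hΨabs i) G.J hG.Jpos _ C0 hXn
  refine le_trans ?_ main
  -- the mean of `Ψ`
  have hP0 : 0 ≤ itMean G.J Ψ := by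
    unfold itMean
    exact div_nonneg (Finset.sum_nonneg fun i _ => hΨ0 i) hJR.le
  have hP7 : itMean G.J Ψ ≤ 7 := by
    unfold itMean
    rw [div_le_iff₀ hJR]
    have := Finset.sum_le_card_nsmul (Finset.range G.J) Ψ 7 (fun i _ => hΨ7 i)
    rw [Finset.card_range, nsmul_eq_mul] at this
    linarith
  -- the shifts
  obtain ⟨M, hM⟩ : ∃ M : ℝ, M = (G.v3 : ℝ) + G.j0 + G.j2 := ⟨_, rfl⟩
  have hw0 : 0 < w := hVw ▸ hV0 jw
  have hcR : c3 ≤ R0 * c3 := le_mul_of_one_le_left (by linarith) hR0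
  have hcfb : ∀ r : Fin 7, |cf r| ≤ 2 * (R0 * c3) := by
    have gen : ∀ θ x : ℝ, 0 ≤ θ ∧ θ ≤ 1 → 0 < x → x ≤ 2 * c3 → |θ * x| ≤ 2 * (R0 * c3) := by
      intro θ x hθ hx0 hx
      rw [abs_of_nonneg (mul_nonneg hθ.1 hx0.le)]
      have : θ * x ≤ 1 * (2 * c3) := mul_le_mul hθ.2 hx hx0.le (by norm_num)
      linarith
    intro r
    rw [hcf]
    fin_cases r
    · exact gen θ1 _ hθ1 (hV0 _) (by linarith)
    · show |-(θ1 * V 0)| ≤ _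
      rw [abs_neg]
      exact gen θ1 _ hθ1 (hV0 _) (by linarith)
    · exact gen θ2 _ hθ2 (hV0 _) (by linarith)
    · show |-(θ2 * V G.u2)| ≤ _
      rw [abs_neg]
      exact gen θ2 _ hθ2 (hV0 _) (by linarith)
    · exact gen θ3 _ hθ3 (hV0 _) (by linarith)
    · show |-(θ3 * V G.u3)| ≤ _
      rw [abs_neg]
      exact gen θ3 _ hθ3 (hV0 _) (by linarith)
    · show |-(k * w)| ≤ _
      rw [abs_neg, abs_of_nonneg (mul_nonneg hk hw0.le)]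
      have : k * w ≤ R0 * 2 := mul_le_mul hkR hw2 hw0.le (by linarith)
      have h9 : R0 ≤ R0 * c3 := le_mul_of_one_le_right (by linarith) hc31
      linarith
  have hshb : ∀ r : Fin 7, (sh r : ℝ) ≤ M := by
    have o1 := hG.o1
    have o2 := hG.o2
    have o3 := hG.o3
    have o4 := hG.o4
    have gen : ∀ s : ℕ, s ≤ G.v3 + G.j0 + G.j2 → (s : ℝ) ≤ M := by
      intro s hs
      rw [hM]
      exact_mod_cast hs
    intro r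
    rw [hsh]
    fin_cases r
    · exact gen G.v1 (by omega)
    · exact gen 0 (by omega)
    · exact gen G.v2 (by omega)
    · exact gen G.u2 (by omega)
    · exact gen G.v3 (by omega)
    · exact gen G.u3 (by omega)
    · exact gen jw (by omega)
  have hM0 : 0 ≤ M := by rw [hM]; positivity
  have hS : ∑ r ∈ (Finset.univ : Finset (Fin 7)), |cf r| * (2 * 7 * (sh r : ℝ) / G.J) ≤ 2 * η := by
    have h1 : ∀ r ∈ (Finset.univ : Finset (Fin 7)), |cf r| * (2 * 7 * (sh r : ℝ) / G.J) ≤ 2 * (R0 * c3) * (2 * 7 * M / G.J) := by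
      intro r _
      refine mul_le_mul (hcfb r) ?_ (by positivity) (by linarith)
      exact div_le_div_of_nonneg_right (by linarith [hshb r]) hJR.le
    have h2 := Finset.sum_le_card_nsmul _ _ _ h1
    rw [Finset.card_univ, Fintype.card_fin, nsmul_eq_mul] at h2
    refine h2.trans ?_
    have h3 : R0 * c3 * M / G.J ≤ η / 100 := by
      rw [div_le_iff₀ hJR]
      rw [← hc3, ← hM] at hJ
      linarith
    have h4 : ((7 : ℕ) : ℝ) * (2 * (R0 * c3) * (2 * 7 * M / G.J)) = 196 * (R0 * c3 * M / G.J) := by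
      push_cast
      ring
    rw [h4]
    linarith
  have hsum : ∑ r ∈ (Finset.univ : Finset (Fin 7)), cf r * itMean G.J ((fun _ : Fin 7 => Ψ) r)
      = (θ1 * (V G.v1 - V 0) + θ2 * (V G.v2 - V G.u2) + θ3 * (V G.v3 - V G.u3) - k * w) * itMean G.J Ψ := by
    rw [← Finset.sum_mul, Fin.sum_univ_seven, hcf]
    show (θ1 * V G.v1 + -(θ1 * V 0) + θ2 * V G.v2 + -(θ2 * V G.u2) + θ3 * V G.v3 + -(θ3 * V G.u3) + -(k * w)) * itMean G.J Ψ = _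
    ring
  rw [hsum, hC0, ← hc1, ← hc2, ← hc3]
  rw [← hc1, ← hc2, ← hc3] at hΘ
  exact it_a_b_fin c1 c2 c3 η d k ω θ1 θ2 θ3 ρ1 ρ2 ρ3 R0 w _ _ _ _ _ hη hη1 hc31 hk hkR hR0 hθ1 hθ2 hθ3 hρ1 hρ2 hρ3 hΘ he1 he2 he3 hP0 hP7 hS

end Claimed.Agent.R256
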