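import Claimed.Agent.R256.Int.Rates

/-!
# Row 256, Sec. 5, ASSEMBLY, file 1: calculus of the patterns `ItLayer`, `ItDepth`, `ItExit`      (block BP-256-INT-ASM, helper239; prefix `it_a_`)

* `it_a_adm_mono`   `Adm` is monotone in the tolerance `τ`
* `it_a_layer_and / mono / flags / scale / triv`, `it_a_depth_*`   combinators for the quantifier patterns
* `it_a_sup`        common upper bound of finitely many packages
* `it_a_engine`     ONE layer statement + ONE depth statement + a DETERMINISTIC inequality on a geometric grid `(1+κ)^i`, `i ≤ N`  ⟹  `ItExit`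
-/

set_option autoImplicit false

namespace Claimed.Agent.R256

open Claimed.Agent.R255
open Claimed.Agent.R255.FLaw (pair)
open scoped BigOperators
open Classical

theorem it_a_L_pos (T : Tan) (h0 : 0 < T.δ) (h1 : T.δ < 1) : 0 < T.L := by
  unfold Tan.L lg
  exact Real.log_pos (by rw [lt_div_iff₀ h0]; linarith)

/-- `Adm` is monotone in the relative tolerance `τ` -/
theorem it_a_adm_mono (T : Tan) (a : ItPar) (pk : ItPk) (τ τ' κ0 acc : ℝ) (hτ : τ ≤ τ') (h : T.Adm a pk τ κ0 acc) :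
    T.Adm a pk τ' κ0 acc := by
  have hL : 0 < T.L := it_a_L_pos T h.t0.δ0 h.t0.δ1
  refine ⟨h.small, h.t0, h.ti, ⟨h.tm.time, ?_, ?_, ?_⟩, h.tg⟩
  · intro hc p hp q hq h0 hpq hk
    refine le_trans (ent_pr_mono _ fun ω _ hω => lt_of_lt_of_le hω ?_) (h.tm.joint hc p hp q hq h0 hpq hk)
    have : τ * (q - p) ≤ τ' * (q - p) := mul_le_mul_of_nonneg_right hτ (by linarith)
    exact mul_le_mul_of_nonneg_right (by nlinarith) hL.le
  · intro hc p hp q hq h0 hpq hk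
    refine le_trans (ent_pr_mono _ fun ω _ hω => lt_of_le_of_lt ?_ hω) (h.tm.mixr hc p hp q hq h0 hpq hk)
    have : τ * (q - p) ≤ τ' * (q - p) := mul_le_mul_of_nonneg_right hτ (by linarith)
    exact mul_le_mul_of_nonneg_right (by nlinarith) hL.le
  · intro hc p hp q hq h0 hpq hk
    refine le_trans (ent_pr_mono _ fun ω _ hω => lt_of_lt_of_le hω ?_) (h.tm.mixt hc p hp q hq h0 hpq hk)
    have : τ * (q - p) ≤ τ' * (q - p) := mul_le_mul_of_nonneg_right hτ (by linarith)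
    exact mul_le_mul_of_nonneg_right (by nlinarith) hL.le

/-! ## packages -/

theorem it_a_le_trans {p1 p2 p3 : ItPk} (h12 : p1.le p2) (h23 : p2.le p3) : p1.le p3 :=
  ⟨h12.1.trans h23.1, h12.2.1.trans h23.2.1, h12.2.2.1.trans h23.2.2.1, h23.2.2.2.1.trans h12.2.2.2.1,
    h12.2.2.2.2.trans h23.2.2.2.2⟩

/-- the join of two package requirements -/
noncomputable def ItPk.sup2 (p1 p2 : ItPk) : ItPk :=
  ⟨max p1.M p2.M, max p1.K p2.K, max p1.RQ p2.RQ, min p1.χ p2.χ, p1.G ∪ p2.G, ∅⟩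

theorem it_a_sup2_pre {p1 p2 : ItPk} (h1 : p1.Pre) (h2 : p2.Pre) : (p1.sup2 p2).Pre := by
  refine ⟨lt_min h1.1 h2.1, fun q hq => ?_⟩
  rcases Finset.mem_union.1 hq with h | h
  · exact h1.2 q h
  · exact h2.2 q h

theorem it_a_le_sup2_left (p1 p2 : ItPk) : p1.le (p1.sup2 p2) :=
  ⟨le_max_left _ _, le_max_left _ _, le_max_left _ _, min_le_left _ _, Finset.subset_union_left⟩

theorem it_a_le_sup2_right (p1 p2 : ItPk) : p2.le (p1.sup2 p2) :=
  ⟨le_max_right _ _, le_max_right _ _, le_max_right _ _, min_le_right _ _, Finset.subset_union_right⟩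

/-- the trivial requirement -/
def itaPk0 : ItPk := ⟨0, 0, 0, 1, ∅, ∅⟩

theorem it_a_pk0_pre : itaPk0.Pre := ⟨one_pos, fun q hq => absurd hq (Finset.notMem_empty q)⟩

theorem it_a_pat_eqns_cite : True := by
  have := @ItPk.sup2.eq_1; have := @itaPk0.eq_1
  trivial

/-- a common upper bound of finitely many packages, with a prescribed `Lam` -/
theorem it_a_sup (S : Finset ItPk) (Lam : Finset ℝ) (hL : Lam.Nonempty) (hpos : ∀ l ∈ Lam, 0 < l)
    (hS : ∀ pk0 ∈ S, pk0.Pre) :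
    ∃ pk : ItPk, pk.Ok ∧ pk.Lam = Lam ∧ ∀ pk0 ∈ S, pk0.le pk := by
  induction S using Finset.induction_on with
  | empty =>
    exact ⟨⟨2, 1, 2, 1, ∅, Lam⟩, ⟨le_rfl, one_pos, by norm_num, one_pos, hL, hpos,
      fun q hq => absurd hq (Finset.notMem_empty q)⟩, rfl, fun pk0 h => absurd h (Finset.notMem_empty pk0)⟩
  | insert x S hx ih =>
    obtain ⟨pk, hok, hlam, hle⟩ := ih fun pk0 h => hS pk0 (Finset.mem_insert_of_mem h)
    have hxp := hS x (Finset.mem_insert_self x S)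
    obtain ⟨B, hB⟩ := x.G.bddAbove
    obtain ⟨h1, h2, h3, h4, -, -, h7⟩ := hok
    have hK : pk.K ≤ max (max pk.K x.K) B := (le_max_left _ _).trans (le_max_left _ _)
    refine ⟨⟨max pk.M x.M, max (max pk.K x.K) B, max (max pk.RQ x.RQ) (max (max pk.K x.K) B + 1), min pk.χ x.χ,
      pk.G ∪ x.G, Lam⟩, ⟨h1.trans (le_max_left _ _), lt_of_lt_of_le h2 hK,
      lt_of_lt_of_le (lt_add_one _) (le_max_right _ _), lt_min h4 hxp.1, hL, hpos, fun q hq => ?_⟩, rfl, fun pk0 h0 => ?_⟩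
    · rcases Finset.mem_union.1 hq with h | h
      · exact ⟨(h7 q h).1, (h7 q h).2.trans hK⟩
      · exact ⟨hxp.2 q h, (hB h).trans (le_max_right _ _)⟩
    · rcases Finset.mem_insert.1 h0 with h | h
      · subst h
        exact ⟨le_max_right _ _, (le_max_right _ _).trans (le_max_left _ _), (le_max_right _ _).trans (le_max_left _ _),
          min_le_right _ _, Finset.subset_union_right⟩
      · obtain ⟨a1, a2, a3, a4, a5⟩ := hle pk0 h
        exact ⟨a1.trans (le_max_left _ _), a2.trans hK, a3.trans ((le_max_left _ _).trans (le_max_left _ _)),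
          (min_le_left _ _).trans a4, a5.trans Finset.subset_union_left⟩

/-! ## layer statements -/

section layer

variable {quad av cr : Bool} {a : ItPar} {Φ Φ' : Tan → ItPk → ℝ → ℝ → ℝ → Prop}

theorem it_a_layer_and (h1 : ItLayer quad av cr a Φ) (h2 : ItLayer quad av cr a Φ') :
    ItLayer quad av cr a (fun T pk p q η => Φ T pk p q η ∧ Φ' T pk p q η) := by
  intro η hη
  obtain ⟨τ1, hτ1, H1⟩ := h1 η hη
  obtain ⟨τ2, hτ2, H2⟩ := h2 η hη
  refine ⟨min τ1 τ2, lt_min hτ1 hτ2, fun κ0 hκ0 => ?_⟩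
  obtain ⟨κ1, hκ1, H1⟩ := H1 κ0 hκ0
  obtain ⟨κ2, hκ2, H2⟩ := H2 κ0 hκ0
  refine ⟨min κ1 κ2, lt_min hκ1 hκ2, fun p q hp hpq hq => ?_⟩
  obtain ⟨pk1, acc1, hp1, ha1, H1⟩ := H1 p q hp hpq
    (hq.trans (mul_le_mul_of_nonneg_right (by linarith [min_le_left κ1 κ2]) hp.le))
  obtain ⟨pk2, acc2, hp2, ha2, H2⟩ := H2 p q hp hpq
    (hq.trans (mul_le_mul_of_nonneg_right (by linarith [min_le_right κ1 κ2]) hp.le))
  refine ⟨pk1.sup2 pk2, min acc1 acc2, it_a_sup2_pre hp1 hp2, lt_min ha1 ha2,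
    fun pk acc T hok hle hacc hacc' hquad hadm hav hcr => ⟨?_, ?_⟩⟩
  · exact H1 pk acc T hok (it_a_le_trans (it_a_le_sup2_left _ _) hle) hacc (hacc'.trans (min_le_left _ _)) hquad
      (it_a_adm_mono T a pk _ _ κ0 acc (min_le_left _ _) hadm) hav hcr
  · exact H2 pk acc T hok (it_a_le_trans (it_a_le_sup2_right _ _) hle) hacc (hacc'.trans (min_le_right _ _)) hquad
      (it_a_adm_mono T a pk _ _ κ0 acc (min_le_right _ _) hadm) hav hcr

theorem it_a_layer_mono (h : ItLayer quad av cr a Φ)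
    (hΦ : ∀ (T : Tan) (pk : ItPk) (p q η τ κ0 acc : ℝ), 0 < η → 0 < p → p < q → pk.Ok → T.quad = quad →
      T.Adm a pk τ κ0 acc → Φ T pk p q η → Φ' T pk p q η) : ItLayer quad av cr a Φ' := by
  intro η hη
  obtain ⟨τ, hτ, H⟩ := h η hη
  refine ⟨τ, hτ, fun κ0 hκ0 => ?_⟩
  obtain ⟨κ1, hκ1, H⟩ := H κ0 hκ0
  refine ⟨κ1, hκ1, fun p q hp hpq hq => ?_⟩
  obtain ⟨pk0, acc0, hp0, ha0, H⟩ := H p q hp hpq hq
  exact ⟨pk0, acc0, hp0, ha0, fun pk acc T hok hle hacc hacc' hquad hadm hav hcr =>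
    hΦ T pk p q η τ κ0 acc hη hp hpq hok hquad hadm (H pk acc T hok hle hacc hacc' hquad hadm hav hcr)⟩

theorem it_a_layer_flags {av' cr' : Bool} (h : ItLayer quad av cr a Φ) (hav : av = true → av' = true)
    (hcr : cr = true → cr' = true) : ItLayer quad av' cr' a Φ := by
  intro η hη
  obtain ⟨τ, hτ, H⟩ := h η hη
  refine ⟨τ, hτ, fun κ0 hκ0 => ?_⟩
  obtain ⟨κ1, hκ1, H⟩ := H κ0 hκ0
  refine ⟨κ1, hκ1, fun p q hp hpq hq => ?_⟩
  obtain ⟨pk0, acc0, hp0, ha0, H⟩ := H p q hp hpq hq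
  exact ⟨pk0, acc0, hp0, ha0, fun pk acc T hok hle hacc hacc' hquad hadm h1 h2 =>
    H pk acc T hok hle hacc hacc' hquad hadm (fun e => h1 (hav e)) (fun e => h2 (hcr e))⟩

theorem it_a_layer_scale (h : ItLayer quad av cr a Φ) (C : ℝ) (hC : 0 < C) :
    ItLayer quad av cr a (fun T pk p q η => Φ T pk p q (η / C)) :=
  fun η hη => h (η / C) (div_pos hη hC)

theorem it_a_layer_triv
    (hΦ : ∀ (T : Tan) (pk : ItPk) (p q η τ κ0 acc : ℝ), 0 < η → 0 < p → p < q → pk.Ok → T.quad = quad →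
      T.Adm a pk τ κ0 acc → Φ T pk p q η) : ItLayer quad av cr a Φ :=
  fun η hη => ⟨1, one_pos, fun κ0 _ => ⟨1, one_pos, fun p q hp hpq _ => ⟨itaPk0, 1, it_a_pk0_pre, one_pos,
    fun pk acc T hok _ _ _ hquad hadm _ _ => hΦ T pk p q η 1 κ0 acc hη hp hpq hok hquad hadm⟩⟩⟩

end layer

/-! ## depth statements -/

section depth

variable {quad av cr : Bool} {a : ItPar} {Φ Φ' : Tan → ItPk → ℝ → ℝ → Prop}

theorem it_a_depth_and (h1 : ItDepth quad av cr a Φ) (h2 : ItDepth quad av cr a Φ') :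
    ItDepth quad av cr a (fun T pk l η => Φ T pk l η ∧ Φ' T pk l η) := by
  intro η hη
  obtain ⟨τ1, hτ1, H1⟩ := h1 η hη
  obtain ⟨τ2, hτ2, H2⟩ := h2 η hη
  refine ⟨min τ1 τ2, lt_min hτ1 hτ2, fun κ0 hκ0 l hl => ?_⟩
  obtain ⟨pk1, acc1, hp1, ha1, H1⟩ := H1 κ0 hκ0 l hl
  obtain ⟨pk2, acc2, hp2, ha2, H2⟩ := H2 κ0 hκ0 l hl
  refine ⟨pk1.sup2 pk2, min acc1 acc2, it_a_sup2_pre hp1 hp2, lt_min ha1 ha2,
    fun pk acc T hok hle hacc hacc' hquad hadm hav hcr => ⟨?_, ?_⟩⟩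
  · exact H1 pk acc T hok (it_a_le_trans (it_a_le_sup2_left _ _) hle) hacc (hacc'.trans (min_le_left _ _)) hquad
      (it_a_adm_mono T a pk _ _ κ0 acc (min_le_left _ _) hadm) hav hcr
  · exact H2 pk acc T hok (it_a_le_trans (it_a_le_sup2_right _ _) hle) hacc (hacc'.trans (min_le_right _ _)) hquad
      (it_a_adm_mono T a pk _ _ κ0 acc (min_le_right _ _) hadm) hav hcr

theorem it_a_depth_mono (h : ItDepth quad av cr a Φ)
    (hΦ : ∀ (T : Tan) (pk : ItPk) (l η τ κ0 acc : ℝ), 0 < η → 0 < l → pk.Ok → T.quad = quad →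
      T.Adm a pk τ κ0 acc → Φ T pk l η → Φ' T pk l η) : ItDepth quad av cr a Φ' := by
  intro η hη
  obtain ⟨τ, hτ, H⟩ := h η hη
  refine ⟨τ, hτ, fun κ0 hκ0 l hl => ?_⟩
  obtain ⟨pk0, acc0, hp0, ha0, H⟩ := H κ0 hκ0 l hl
  exact ⟨pk0, acc0, hp0, ha0, fun pk acc T hok hle hacc hacc' hquad hadm hav hcr =>
    hΦ T pk l η τ κ0 acc hη hl hok hquad hadm (H pk acc T hok hle hacc hacc' hquad hadm hav hcr)⟩

theorem it_a_depth_flags {av' cr' : Bool} (h : ItDepth quad av cr a Φ) (hav : av = true → av' = true)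
    (hcr : cr = true → cr' = true) : ItDepth quad av' cr' a Φ := by
  intro η hη
  obtain ⟨τ, hτ, H⟩ := h η hη
  refine ⟨τ, hτ, fun κ0 hκ0 l hl => ?_⟩
  obtain ⟨pk0, acc0, hp0, ha0, H⟩ := H κ0 hκ0 l hl
  exact ⟨pk0, acc0, hp0, ha0, fun pk acc T hok hle hacc hacc' hquad hadm h1 h2 =>
    H pk acc T hok hle hacc hacc' hquad hadm (fun e => h1 (hav e)) (fun e => h2 (hcr e))⟩

theorem it_a_depth_scale (h : ItDepth quad av cr a Φ) (C : ℝ) (hC : 0 < C) :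
    ItDepth quad av cr a (fun T pk l η => Φ T pk l (η / C)) :=
  fun η hη => h (η / C) (div_pos hη hC)

theorem it_a_depth_triv
    (hΦ : ∀ (T : Tan) (pk : ItPk) (l η τ κ0 acc : ℝ), 0 < η → 0 < l → pk.Ok → T.quad = quad →
      T.Adm a pk τ κ0 acc → Φ T pk l η) : ItDepth quad av cr a Φ :=
  fun η hη => ⟨1, one_pos, fun κ0 _ l hl => ⟨itaPk0, 1, it_a_pk0_pre, one_pos,
    fun pk acc T hok _ _ _ hquad hadm _ _ => hΦ T pk l η 1 κ0 acc hη hl hok hquad hadm⟩⟩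

end depth

/-- finitely many positive numbers have a positive lower bound -/
theorem it_a_pos_inf (N : ℕ) (f : ℕ → ℝ) (hf : ∀ i ≤ N, 0 < f i) : ∃ c : ℝ, 0 < c ∧ ∀ i ≤ N, c ≤ f i := by
  induction N with
  | zero => exact ⟨f 0, hf 0 le_rfl, fun i hi => by rw [Nat.le_zero.1 hi]⟩
  | succ N ih =>
    obtain ⟨c, hc, h⟩ := ih fun i hi => hf i (by omega)
    refine ⟨min c (f (N + 1)), lt_min hc (hf _ le_rfl), fun i hi => ?_⟩
    rcases Nat.lt_or_ge N i with h1 | h1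
    · have : i = N + 1 := by omega
      subst this
      exact min_le_right _ _
    · exact (min_le_left _ _).trans (h i h1)

/-- **THE ENGINE.**  One layer statement, one depth statement and a deterministic inequality on the grid `(1+κ)^i`, `i ≤ N`, give the exit. -/
theorem it_a_engine (quad av cr : Bool) (a : ItPar) (k : ℝ) (ΦL : Tan → ItPk → ℝ → ℝ → ℝ → Prop)
    (ΦD : Tan → ItPk → ℝ → ℝ → Prop) (hL : ItLayer quad av cr a ΦL) (hD : ItDepth quad av cr a ΦD)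
    (hdet : ∀ σ : ℝ, 0 < σ → ∃ η : ℝ, 0 < η ∧ ∀ κ1 : ℝ, 0 < κ1 → ∃ (κ acc1 : ℝ) (N : ℕ) (Lam : Finset ℝ),
      0 < κ ∧ κ ≤ κ1 ∧ 0 < acc1 ∧ Lam.Nonempty ∧ (∀ l ∈ Lam, 0 < l) ∧
      ∀ (T : Tan) (pk : ItPk) (τ κ0 acc : ℝ), pk.Ok → pk.Lam = Lam → acc ≤ acc1 → T.quad = quad → T.Adm a pk τ κ0 acc →
        (∀ i : ℕ, i ≤ N → ΦL T pk ((1 + κ) ^ i) ((1 + κ) ^ (i + 1)) η) →
        (∀ i : ℕ, i ≤ N → ΦD T pk ((1 + κ) ^ i) η) → a.rhs quad k - σ ≤ T.mean pk k) :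
    ItExit quad av cr a k := by
  intro σ hσ
  obtain ⟨η, hη, hdet⟩ := hdet σ hσ
  obtain ⟨τ1, hτ1, HL⟩ := hL η hη
  obtain ⟨τ2, hτ2, HD⟩ := hD η hη
  refine ⟨min τ1 τ2, lt_min hτ1 hτ2, fun κ0 hκ0 => ?_⟩
  obtain ⟨κ1, hκ1, HL⟩ := HL κ0 hκ0
  obtain ⟨κ, acc1, N, Lam, hκ, hκκ, hacc1, hne, hpos, hdet⟩ := hdet κ1 hκ1
  have hg : (0 : ℝ) < 1 + κ := by linarith
  have HL' : ∀ i : ℕ, ∃ (pk0 : ItPk) (acc0 : ℝ), pk0.Pre ∧ 0 < acc0 ∧ ∀ (pk : ItPk) (acc : ℝ) (T : Tan), pk.Ok →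
      pk0.le pk → 0 < acc → acc ≤ acc0 → T.quad = quad → T.Adm a pk τ1 κ0 acc → (av = true → T.Avoid a pk acc) →
      (cr = true → T.Cross pk acc) → ΦL T pk ((1 + κ) ^ i) ((1 + κ) ^ (i + 1)) η := by
    intro i
    have hp : (0 : ℝ) < (1 + κ) ^ i := pow_pos hg i
    refine HL _ _ hp ?_ ?_
    · rw [pow_succ]; nlinarith
    · rw [pow_succ, mul_comm]
      exact mul_le_mul_of_nonneg_right (by linarith) hp.le
  have HD' : ∀ i : ℕ, ∃ (pk0 : ItPk) (acc0 : ℝ), pk0.Pre ∧ 0 < acc0 ∧ ∀ (pk : ItPk) (acc : ℝ) (T : Tan), pk.Ok →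
      pk0.le pk → 0 < acc → acc ≤ acc0 → T.quad = quad → T.Adm a pk τ2 κ0 acc → (av = true → T.Avoid a pk acc) →
      (cr = true → T.Cross pk acc) → ΦD T pk ((1 + κ) ^ i) η := fun i => HD κ0 hκ0 _ (pow_pos hg i)
  choose pkL accL hL1 hL2 hL3 using HL'
  choose pkD accD hD1 hD2 hD3 using HD'
  obtain ⟨pk, hok, hlam, hle⟩ := it_a_sup ((Finset.range (N + 1)).image pkL ∪ (Finset.range (N + 1)).image pkD) Lam hne hpos
    (by
      intro pk0 h0
      rcases Finset.mem_union.1 h0 with h | h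
      · obtain ⟨i, -, rfl⟩ := Finset.mem_image.1 h
        exact hL1 i
      · obtain ⟨i, -, rfl⟩ := Finset.mem_image.1 h
        exact hD1 i)
  obtain ⟨cL, hcL, hcL'⟩ := it_a_pos_inf N accL fun i _ => hL2 i
  obtain ⟨cD, hcD, hcD'⟩ := it_a_pos_inf N accD fun i _ => hD2 i
  refine ⟨pk, min acc1 (min cL cD), hok, lt_min hacc1 (lt_min hcL hcD), fun T hquad hadm hav hcr => ?_⟩
  have hacc : 0 < min acc1 (min cL cD) := lt_min hacc1 (lt_min hcL hcD)
  refine hdet T pk _ κ0 _ hok hlam (min_le_left _ _) hquad hadm (fun i hi => ?_) (fun i hi => ?_)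
  · exact hL3 i pk _ T hok
      (hle _ (Finset.mem_union_left _ (Finset.mem_image_of_mem _ (Finset.mem_range.2 (by omega))))) hacc
      (((min_le_right _ _).trans (min_le_left _ _)).trans (hcL' i hi)) hquad
      (it_a_adm_mono T a pk _ _ κ0 _ (min_le_left _ _) hadm) hav hcr
  · exact hD3 i pk _ T hok
      (hle _ (Finset.mem_union_right _ (Finset.mem_image_of_mem _ (Finset.mem_range.2 (by omega))))) hacc
      (((min_le_right _ _).trans (min_le_right _ _)).trans (hcD' i hi)) hquad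
      (it_a_adm_mono T a pk _ _ κ0 _ (min_le_right _ _) hadm) hav hcr

end Claimed.Agent.R256
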