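import Claimed.Agent.R256.Int.Asm.Time

/-!
# Row 256, Sec. 5, ASSEMBLY, file 4: the PAY and WIDTH patterns of all cases, from the internal contracts      (block BP-256-INT-ASM, helper239; prefix `it_a_pay_`, `it_a_wid_`)

Each statement = COST of the range + RATES of the case (`Int/Contract.lean`), combined by `it_a_layer_and / scale / mono` and linear arithmetic in the monomials `x (q-p) L`.
-/

set_option autoImplicit false
set_option linter.unusedVariables false

namespace Claimed.Agent.R256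

open Claimed.Agent.R255
open Claimed.Agent.R255.FLaw (pair)
open scoped BigOperators
open Classical

/-! ## generic -/

/-- the first range always pays `α - m` -/
theorem it_a_pay_w (quad av cr : Bool) (a : ItPar) (ha : a.Ok) : ItPay quad av cr a 0 (min 1 a.c) 1 (-a.m) := by
  refine it_a_layer_mono (it_a_layer_flags (av' := av) (cr' := cr) (it_cost_w quad a ha) (by simp) (by simp)) ?_
  intro T pk p q η τ κ0 acc hη hp hpq hok hquad hadm h l hl _ h2
  have := h l hl h2
  linarith

/-- an empty range pays anything -/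
theorem it_a_pay_empty (quad av cr : Bool) (a : ItPar) (lo θ ρ : ℝ) : ItPay quad av cr a lo lo θ ρ :=
  it_a_layer_triv fun T pk p q η τ κ0 acc hη hp hpq hok hquad hadm l hl h1 h2 => absurd (h1.trans_lt hpq) (not_lt.2 h2)

/-- a smaller rate is paid as well -/
theorem it_a_pay_mono {quad av cr : Bool} {a : ItPar} {lo hi θ ρ ρ' : ℝ} (h : ItPay quad av cr a lo hi θ ρ) (hρ : ρ' ≤ ρ) :
    ItPay quad av cr a lo hi θ ρ' := by
  refine it_a_layer_mono h ?_
  intro T pk p q η τ κ0 acc hη hp hpq hok hquad hadm h l hl h1 h2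
  have h3 := h l hl h1 h2
  have hL := it_a_L_pos T hadm.t0.δ0 hadm.t0.δ1
  have ht : 0 < (q - p) * T.L := mul_pos (sub_pos.2 hpq) hL
  have h4 : ρ' * ((q - p) * T.L) ≤ ρ * ((q - p) * T.L) := mul_le_mul_of_nonneg_right hρ ht.le
  linarith

/-- the last range pays at least `0` -/
theorem it_a_pay_x0 (quad av cr : Bool) (a : ItPar) (ha : a.Ok) : ItPay quad av cr a (max 1 a.c) (1 + a.c) 0 0 := by
  refine it_a_layer_mono (it_a_layer_flags (av' := av) (cr' := cr) (it_cost_x quad a ha) (by simp) (by simp)) ?_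
  intro T pk p q η τ κ0 acc hη hp hpq hok hquad hadm h l hl h1 h2
  have h3 := h l hl h1 h2
  have h4 := it_k_nonneg T pk.M p q [T.cx p 0] []
  linarith

/-! ## quadratic -/

/-- last range, `|x_0| ≥ d` -/
theorem it_a_pay_qx_d (a : ItPar) (ha : a.Ok) (hm : 0 < a.m) : ItPay true true false a (max 1 a.c) (1 + a.c) 0 a.d := by
  have h1 := it_a_layer_flags (av' := true) (cr' := false) (it_cost_x true a ha) (by simp) (by simp)
  refine it_a_layer_mono (it_a_layer_scale (it_a_layer_and h1 (it_q_cross a ha hm)) 2 (by norm_num)) ?_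
  intro T pk p q η τ κ0 acc hη hp hpq hok hquad hadm h l hl h1 h2
  obtain ⟨b1, b2⟩ := h
  have b1 := b1 l hl h1 h2
  linarith

/-- last range, `|x_0| ≥ n_*` -/
theorem it_a_pay_qx_n (a : ItPar) (ha : a.Ok) (hm : 0 < a.m) (hc : a.c < 1) :
    ItPay true true false a (max 1 a.c) (1 + a.c) 0 a.ns := by
  have h1 := it_a_layer_flags (av' := true) (cr' := false) (it_cost_x true a ha) (by simp) (by simp)
  refine it_a_layer_mono (it_a_layer_scale (it_a_layer_and h1 (it_q_mix1 a ha hm hc)) 2 (by norm_num)) ?_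
  intro T pk p q η τ κ0 acc hη hp hpq hok hquad hadm h l hl h1 h2
  obtain ⟨b1, b2⟩ := h
  have b1 := b1 l hl h1 h2
  linarith

/-- (i), `c < 1`, first range -/
theorem it_a_pay_q1a (a : ItPar) (ha : a.Ok) (hm : 0 < a.m) (hc : a.c < 1) :
    ItPay true true false a 0 (min 1 a.c) 0 (a.m + a.ls + max (a.m + a.ls) (a.as + a.ν) + a.ns) := by
  have h1 := it_a_layer_flags (av' := true) (cr' := false) (it_cost_w true a ha) (by simp) (by simp)
  have H := it_a_layer_scale (it_a_layer_and h1 (it_a_layer_and (it_q_hor a ha hm) (it_a_layer_and (it_q_centre a ha hm)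
    (it_a_layer_and (it_q_mix3 a ha hm hc) (it_q_mix1 a ha hm hc))))) 4 (by norm_num)
  refine it_a_layer_mono H ?_
  intro T pk p q η τ κ0 acc hη hp hpq hok hquad hadm h l hl _ h2
  obtain ⟨b1, b2, b3, b4, b5⟩ := h
  have b1 := b1 l hl h2
  rcases max_choice (a.m + a.ls) (a.as + a.ν) with e | e <;> rw [e] <;> linarith

/-- (i), `c < 1`, middle range -/
theorem it_a_pay_q2a (a : ItPar) (ha : a.Ok) (hm : 0 < a.m) (hc : a.c < 1) :
    ItPay true true false a (min 1 a.c) (max 1 a.c) 0 (a.ls + a.as + a.ns) := by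
  have h1 := it_a_layer_flags (av' := true) (cr' := false) (it_cost_pi true a ha hc) (by simp) (by simp)
  have H := it_a_layer_scale (it_a_layer_and h1 (it_a_layer_and (it_q_mix4 a ha hm hc) (it_q_mix1 a ha hm hc))) 3 (by norm_num)
  refine it_a_layer_mono H ?_
  intro T pk p q η τ κ0 acc hη hp hpq hok hquad hadm h l hl h1 h2
  rw [min_eq_right hc.le] at h1
  rw [max_eq_left hc.le, one_mul] at h2
  obtain ⟨b1, b2, b3⟩ := h
  have b1 := b1 l hl h1 h2
  linarith

/-- (i), `c ≥ 1`, first range -/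
theorem it_a_pay_q1b (a : ItPar) (ha : a.Ok) (hm : 0 < a.m) :
    ItPay true true false a 0 (min 1 a.c) 0 (2 * a.m + 2 * a.ls + a.d) := by
  have h1 := it_a_layer_flags (av' := true) (cr' := false) (it_cost_w true a ha) (by simp) (by simp)
  have H := it_a_layer_scale (it_a_layer_and h1 (it_a_layer_and (it_q_hor a ha hm) (it_a_layer_and (it_q_centre a ha hm)
    (it_q_cross a ha hm)))) 4 (by norm_num)
  refine it_a_layer_mono H ?_
  intro T pk p q η τ κ0 acc hη hp hpq hok hquad hadm h l hl _ h2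
  obtain ⟨b1, b2, b3, b4⟩ := h
  have b1 := b1 l hl h2
  linarith

/-- (i), `c ≥ 1`, middle range -/
theorem it_a_pay_q2b (a : ItPar) (ha : a.Ok) (hm : 0 < a.m) (hc : 1 ≤ a.c) :
    ItPay true true false a (min 1 a.c) (max 1 a.c) 0 (2 * a.m + a.d) := by
  rcases hc.eq_or_lt with hc1 | hc1
  · rw [← hc1, min_self, max_self]
    exact it_a_pay_empty _ _ _ _ _ _ _
  have h1 := it_a_layer_flags (av' := true) (cr' := false) (it_cost_G true a ha hc1) (by simp) (by simp)
  have H := it_a_layer_scale (it_a_layer_and h1 (it_a_layer_and (it_q_G1 a ha hm hc1) (it_q_cross a ha hm))) 3 (by norm_num)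
  refine it_a_layer_mono H ?_
  intro T pk p q η τ κ0 acc hη hp hpq hok hquad hadm h l hl h1 h2
  rw [min_eq_left hc, one_mul] at h1
  rw [max_eq_right hc] at h2
  obtain ⟨b1, b2, b3⟩ := h
  have b1 := b1 l hl h1 h2
  linarith

/-- (ii), middle range: `2 |G_0| ≥ α - 1` -/
theorem it_a_pay_q2c (a : ItPar) (ha : a.Ok) (hm : 0 < a.m) (hc : 1 ≤ a.c) :
    ItPay true true false a (min 1 a.c) (max 1 a.c) (1 / 2) (-(1 / 2)) := by
  rcases hc.eq_or_lt with hc1 | hc1
  · rw [← hc1, min_self, max_self]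
    exact it_a_pay_empty _ _ _ _ _ _ _
  have h1 := it_a_layer_flags (av' := true) (cr' := false) (it_cost_G true a ha hc1) (by simp) (by simp)
  have H := it_a_layer_scale (it_a_layer_and h1 (it_q_G2 a ha hm hc1)) 2 (by norm_num)
  refine it_a_layer_mono H ?_
  intro T pk p q η τ κ0 acc hη hp hpq hok hquad hadm h l hl h1 h2
  rw [min_eq_left hc, one_mul] at h1
  rw [max_eq_right hc] at h2
  obtain ⟨b1, b2⟩ := h
  have b1 := b1 l hl h1 h2
  have hL := it_a_L_pos T hadm.t0.δ0 hadm.t0.δ1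
  have ht : 0 < η * ((q - p) * T.L) := mul_pos hη (mul_pos (sub_pos.2 hpq) hL)
  linarith

/-! ## linear -/

/-- last range, `|x_0| ≥ l_*` -/
theorem it_a_pay_lx_l (a : ItPar) (ha : a.Ok) (hm : 0 < a.m) : ItPay false false true a (max 1 a.c) (1 + a.c) 0 a.ls := by
  have h1 := it_a_layer_flags (av' := false) (cr' := true) (it_cost_x false a ha) (by simp) (by simp)
  refine it_a_layer_mono (it_a_layer_scale (it_a_layer_and h1 (it_l_x a ha hm)) 2 (by norm_num)) ?_
  intro T pk p q η τ κ0 acc hη hp hpq hok hquad hadm h l hl h1 h2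
  obtain ⟨b1, b2⟩ := h
  have b1 := b1 l hl h1 h2
  linarith

/-- last range, `|x_0| ≥ n_*` -/
theorem it_a_pay_lx_n (a : ItPar) (ha : a.Ok) (hm : 0 < a.m) (hc : a.c < 1) (hν : 0 < a.ν) :
    ItPay false false true a (max 1 a.c) (1 + a.c) 0 a.ns := by
  have h1 := it_a_layer_flags (av' := false) (cr' := true) (it_cost_x false a ha) (by simp) (by simp)
  refine it_a_layer_mono (it_a_layer_scale (it_a_layer_and h1 (it_l_mix1 a ha hm hc hν)) 2 (by norm_num)) ?_
  intro T pk p q η τ κ0 acc hη hp hpq hok hquad hadm h l hl h1 h2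
  obtain ⟨b1, b2⟩ := h
  have b1 := b1 l hl h1 h2
  linarith

/-- (iv), `c < 1`, `ν > 0`, first range -/
theorem it_a_pay_l1a (a : ItPar) (ha : a.Ok) (hm : 0 < a.m) (hc : a.c < 1) (hν : 0 < a.ν) :
    ItPay false false true a 0 (min 1 a.c) 0 (2 * a.ls + a.ns + a.ν) := by
  have h1 := it_a_layer_flags (av' := false) (cr' := true) (it_cost_w false a ha) (by simp) (by simp)
  have H := it_a_layer_scale (it_a_layer_and h1 (it_a_layer_and (it_l_mix3 a ha hm hc hν) (it_l_mix2 a ha hm hc hν))) 3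
    (by norm_num)
  refine it_a_layer_mono H ?_
  intro T pk p q η τ κ0 acc hη hp hpq hok hquad hadm h l hl _ h2
  obtain ⟨b1, b2, b3⟩ := h
  have b1 := b1 l hl h2
  linarith

/-- `c < 1`, `ν > 0`, middle range -/
theorem it_a_pay_l2a (a : ItPar) (ha : a.Ok) (hm : 0 < a.m) (hc : a.c < 1) (hν : 0 < a.ν) :
    ItPay false false true a (min 1 a.c) (max 1 a.c) 0 (2 * a.ls + a.ns) := by
  have h1 := it_a_layer_flags (av' := false) (cr' := true) (it_cost_pi false a ha hc) (by simp) (by simp)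
  have H := it_a_layer_scale (it_a_layer_and h1 (it_l_mix2 a ha hm hc hν)) 2 (by norm_num)
  refine it_a_layer_mono H ?_
  intro T pk p q η τ κ0 acc hη hp hpq hok hquad hadm h l hl h1 h2
  rw [min_eq_right hc.le] at h1
  rw [max_eq_left hc.le, one_mul] at h2
  obtain ⟨b1, b2⟩ := h
  have b1 := b1 l hl h1 h2
  linarith

/-- (iv), `c < 1`, `ν = 0`, first range -/
theorem it_a_pay_l1b (a : ItPar) (ha : a.Ok) (hm : 0 < a.m) (hc : a.c < 1) (hν : a.ν = 0) :
    ItPay false false true a 0 (min 1 a.c) 0 (2 * a.d + a.ls) := by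
  have h1 := it_a_layer_flags (av' := false) (cr' := true) (it_cost_w false a ha) (by simp) (by simp)
  have h2 := it_a_layer_flags (av' := false) (cr' := true) (it_l_inv a ha) (by simp) (by simp)
  have H := it_a_layer_scale (it_a_layer_and h1 (it_a_layer_and h2 (it_l_dbl1 a ha hm hc hν))) 3 (by norm_num)
  refine it_a_layer_mono H ?_
  intro T pk p q η τ κ0 acc hη hp hpq hok hquad hadm h l hl _ h2
  obtain ⟨b1, b2, b3⟩ := h
  have b1 := b1 l hl h2
  linarith

/-- `c < 1`, `ν = 0`, middle range -/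
theorem it_a_pay_l2b (a : ItPar) (ha : a.Ok) (hm : 0 < a.m) (hc : a.c < 1) (hν : a.ν = 0) :
    ItPay false false true a (min 1 a.c) (max 1 a.c) 0 (2 * a.d + a.ls) := by
  have h1 := it_a_layer_flags (av' := false) (cr' := true) (it_cost_pi false a ha hc) (by simp) (by simp)
  have H := it_a_layer_scale (it_a_layer_and h1 (it_l_dbl1 a ha hm hc hν)) 2 (by norm_num)
  refine it_a_layer_mono H ?_
  intro T pk p q η τ κ0 acc hη hp hpq hok hquad hadm h l hl h1 h2
  rw [min_eq_right hc.le] at h1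
  rw [max_eq_left hc.le, one_mul] at h2
  obtain ⟨b1, b2⟩ := h
  have b1 := b1 l hl h1 h2
  linarith

/-- (iv), `c = 1`, first range -/
theorem it_a_pay_l1c (a : ItPar) (ha : a.Ok) (hm : 0 < a.m) (hc : a.c = 1) :
    ItPay false false true a 0 (min 1 a.c) 0 (a.ls + 2 * a.d) := by
  have h1 := it_a_layer_flags (av' := false) (cr' := true) (it_cost_w false a ha) (by simp) (by simp)
  have H := it_a_layer_scale (it_a_layer_and h1 (it_a_layer_and (it_l_dbl2 a ha hm hc) (it_l_x a ha hm))) 3 (by norm_num)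
  refine it_a_layer_mono H ?_
  intro T pk p q η τ κ0 acc hη hp hpq hok hquad hadm h l hl _ h2
  obtain ⟨b1, b2, b3⟩ := h
  have b1 := b1 l hl h2
  linarith

/-- (iv), `c > 1`, first range -/
theorem it_a_pay_l1d (a : ItPar) (ha : a.Ok) (hm : 0 < a.m) (hc : 1 < a.c) :
    ItPay false false true a 0 (min 1 a.c) 0 (2 * a.d + a.m + a.ls) := by
  have h1 := it_a_layer_flags (av' := false) (cr' := true) (it_cost_w false a ha) (by simp) (by simp)
  have H := it_a_layer_scale (it_a_layer_and h1 (it_a_layer_and (it_l_dbl3 a ha hm hc) (it_l_G1 a ha hm hc))) 3 (by norm_num)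
  refine it_a_layer_mono H ?_
  intro T pk p q η τ κ0 acc hη hp hpq hok hquad hadm h l hl _ h2
  obtain ⟨b1, b2, b3⟩ := h
  have b1 := b1 l hl h2
  linarith

/-- (iv), `c > 1`, middle range -/
theorem it_a_pay_l2d (a : ItPar) (ha : a.Ok) (hm : 0 < a.m) (hc : 1 < a.c) :
    ItPay false false true a (min 1 a.c) (max 1 a.c) 0 (a.m + a.ls) := by
  have h1 := it_a_layer_flags (av' := false) (cr' := true) (it_cost_G false a ha hc) (by simp) (by simp)
  have H := it_a_layer_scale (it_a_layer_and h1 (it_l_G1 a ha hm hc)) 2 (by norm_num)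
  refine it_a_layer_mono H ?_
  intro T pk p q η τ κ0 acc hη hp hpq hok hquad hadm h l hl h1 h2
  rw [min_eq_left hc.le, one_mul] at h1
  rw [max_eq_right hc.le] at h2
  obtain ⟨b1, b2⟩ := h
  have b1 := b1 l hl h1 h2
  linarith

/-- (v), `c ≥ 1`, middle range: `2 |G_0| ≥ α - 1` -/
theorem it_a_pay_l2e (a : ItPar) (ha : a.Ok) (hm : 0 < a.m) (hc : 1 ≤ a.c) :
    ItPay false false true a (min 1 a.c) (max 1 a.c) (1 / 2) (-(1 / 2)) := by
  rcases hc.eq_or_lt with hc1 | hc1
  · rw [← hc1, min_self, max_self]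
    exact it_a_pay_empty _ _ _ _ _ _ _
  have h1 := it_a_layer_flags (av' := false) (cr' := true) (it_cost_G false a ha hc1) (by simp) (by simp)
  have H := it_a_layer_scale (it_a_layer_and h1 (it_l_G2 a ha hm hc1)) 2 (by norm_num)
  refine it_a_layer_mono H ?_
  intro T pk p q η τ κ0 acc hη hp hpq hok hquad hadm h l hl h1 h2
  rw [min_eq_left hc, one_mul] at h1
  rw [max_eq_right hc] at h2
  obtain ⟨b1, b2⟩ := h
  have b1 := b1 l hl h1 h2
  have hL := it_a_L_pos T hadm.t0.δ0 hadm.t0.δ1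
  have ht : 0 < η * ((q - p) * T.L) := mul_pos hη (mul_pos (sub_pos.2 hpq) hL)
  linarith

/-- (vi), middle range: (miss) `|π_0| ≥ α - m - 1` -/
theorem it_a_pay_l2f (cr : Bool) (a : ItPar) (ha : a.Ok) (hc : a.c < 1) :
    ItPay false false cr a (min 1 a.c) (max 1 a.c) 1 (-a.m - 1) := by
  have h1 := it_a_layer_flags (av' := false) (cr' := cr) (it_cost_pi false a ha hc) (by simp) (by simp)
  have h2 := it_a_layer_flags (av' := false) (cr' := cr) (it_l_miss a ha) (by simp) (by simp)
  have H := it_a_layer_scale (it_a_layer_and h1 h2) 2 (by norm_num)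
  refine it_a_layer_mono H ?_
  intro T pk p q η τ κ0 acc hη hp hpq hok hquad hadm h l hl h1 h2
  rw [min_eq_right hc.le] at h1
  rw [max_eq_left hc.le, one_mul] at h2
  obtain ⟨b1, b2⟩ := h
  have b1 := b1 l hl h1 h2
  linarith

/-! ## widths -/

/-- quadratic width with `e ≥ 2m` -/
theorem it_a_wid_q0 (av cr : Bool) (a : ItPar) (ha : a.Ok) : ItWid true av cr a 2 (-(2 * a.m)) := by
  have H := it_a_depth_flags (av' := av) (cr' := cr)
    (it_a_depth_scale (it_a_depth_and (it_width_q a ha) (it_e_weak a ha)) 2 (by norm_num)) (by simp) (by simp)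
  refine it_a_depth_mono H ?_
  intro T pk l η τ κ0 acc hη hl hok hquad hadm h hmem
  obtain ⟨b1, b2⟩ := h
  have b1 := b1 hmem
  linarith

/-- quadratic width with `e ≥ 2m + d` -/
theorem it_a_wid_q1 (a : ItPar) (ha : a.Ok) (hm : 0 < a.m) : ItWid true true false a 2 (-(2 * a.m + a.d)) := by
  have h1 := it_a_depth_flags (av' := true) (cr' := false) (it_width_q a ha) (by simp) (by simp)
  have H := it_a_depth_scale (it_a_depth_and h1 (it_e_q a ha hm)) 2 (by norm_num)
  refine it_a_depth_mono H ?_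
  intro T pk l η τ κ0 acc hη hl hok hquad hadm h hmem
  obtain ⟨b1, b2⟩ := h
  have b1 := b1 hmem
  linarith

/-- linear width -/
theorem it_a_wid_l (av cr : Bool) (a : ItPar) (ha : a.Ok) : ItWid false av cr a 1 1 := by
  refine it_a_depth_mono (it_a_depth_flags (av' := av) (cr' := cr) (it_width_l a ha) (by simp) (by simp)) ?_
  intro T pk l η τ κ0 acc hη hl hok hquad hadm h hmem
  rw [one_mul]
  exact h hmem

end Claimed.Agent.R256
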