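import Claimed.Agent.R256.Int.Asm.Pat
import Claimed.Agent.R256.Int.Asm.Grid

/-!
# Row 256, Sec. 5, ASSEMBLY, file 3: from PAY patterns on three ranges to an exit      (block BP-256-INT-ASM, helper239; prefix `it_a_`)

* `ItPay quad av cr a lo hi θ ρ` : every short layer `(p,q)` with `lo l ≤ p`, `q ≤ hi l` pays `inf l p q ≥ θ hF(p,q) + (ρ - η)(q-p) L`
* `ItWid quad av cr a w ω`       : `H(Wd_l | C_*) ≤ hA(w l) + (ω + η) l L`
* `it_a_three` : PAY on `(0, min(1,c))`, `(min(1,c), max(1,c))`, `(max(1,c), 1+c)` + WIDTH + cancellation of the `α`-terms (`hΘ`) + NUM (`hnum`)  ⟹  `ItExit`.       GLUE PROVED.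
-/

set_option autoImplicit false

namespace Claimed.Agent.R256

open Claimed.Agent.R255
open Claimed.Agent.R255.FLaw (pair)
open scoped BigOperators
open Classical

/-- PAY pattern -/
def ItPay (quad av cr : Bool) (a : ItPar) (lo hi θ ρ : ℝ) : Prop :=
  ItLayer quad av cr a (fun T pk p q η => ∀ l ∈ pk.Lam, lo * l ≤ p → q ≤ hi * l →
    θ * T.hF pk.M p q + (ρ - η) * (q - p) * T.L ≤ T.inf l p q)

/-- WIDTH pattern -/
def ItWid (quad av cr : Bool) (a : ItPar) (w ω : ℝ) : Prop :=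
  ItDepth quad av cr a (fun T pk l η => l ∈ pk.Lam →
    T.P.entC (T.Wd l) T.Cs ≤ T.hA pk.M (w * l) + (ω + η) * l * T.L)

theorem it_a_time_eqns_cite : True := by
  have := @ItPay.eq_1; have := @ItWid.eq_1
  trivial

/-- **LEAF L-256-INT-A-LARGE.**  OWNER helper239, EST 15 lines.   `L = log (1/δ) ≥ log (1/acc1)`; take `acc1 = exp (-C)`. -/
theorem it_a_L_large (C : ℝ) : ∃ acc1 : ℝ, 0 < acc1 ∧ ∀ T : Tan, 0 < T.δ → T.δ < acc1 → C ≤ T.L := by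
  refine ⟨Real.exp (-C), Real.exp_pos _, fun T h0 h1 => ?_⟩
  unfold Tan.L lg
  rw [one_div, Real.log_inv]
  have h2 := Real.log_lt_log h0 h1
  rw [Real.log_exp] at h2
  linarith

/-- **LEAF L-256-INT-A-CAP.**  OWNER helper239, EST 20 lines.   `it_k_hA_cap` and `1 ≤ g^i`. -/
theorem it_a_hA_le (T : Tan) (h0 : 0 < T.δ) (h1 : T.δ < 1) (M : ℕ) (B0 g : ℝ) (hB : 1 ≤ B0) (hg : 1 ≤ g)
    (hF : ∀ ω, T.P.p ω ≠ 0 → (T.F ω).nrm ≤ B0) (hL : 6 * Real.log (4 * B0 + 4) ≤ T.L) (i : ℕ) :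
    T.hA M (g ^ i) ≤ 7 * g ^ i * T.L := by
  have hgi : 1 ≤ g ^ i := one_le_pow₀ hg
  have hL0 : 0 < T.L := it_a_L_pos T h0 h1
  have h := it_k_hA_cap T h0 h1 M (g ^ i) B0 (by linarith) hB hF
  have h2 : 1 * T.L ≤ g ^ i * T.L := mul_le_mul_of_nonneg_right hgi hL0.le
  linarith

/-- **LEAF L-256-INT-A-RANGE.**  OWNER helper239, EST 40 lines.   Induction on `m`; `it_k_tele` : `hA(g^(s+m+1)) = hA(g^(s+m)) + hF(g^(s+m), g^(s+m+1))`. -/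
theorem it_a_range_sum (T : Tan) (h0 : 0 < T.δ) (h1 : T.δ < 1) (M : ℕ) (g l θ ρ : ℝ) (hg : 1 ≤ g) (s m : ℕ)
    (h : ∀ t < m, θ * T.hF M (g ^ (s + t)) (g ^ (s + t + 1)) + ρ * (g ^ (s + t + 1) - g ^ (s + t)) * T.L
      ≤ T.inf l (g ^ (s + t)) (g ^ (s + t + 1))) :
    θ * (T.hA M (g ^ (s + m)) - T.hA M (g ^ s)) + ρ * (g ^ (s + m) - g ^ s) * T.L
      ≤ ∑ t ∈ Finset.range m, T.inf l (g ^ (s + t)) (g ^ (s + t + 1)) := by
  induction m with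
  | zero => simp
  | succ m ih =>
    rw [Finset.sum_range_succ]
    have h2 := ih (fun t ht => h t (by omega))
    have h3 := h m (by omega)
    have h4 := it_k_tele T h0 h1 M (g ^ (s + m)) (g ^ (s + m + 1)) (pow_le_pow_right₀ hg (by omega))
    have e : s + (m + 1) = s + m + 1 := by omega
    rw [e, h4]
    linarith

theorem it_a_aux_split3 (f : ℕ → ℝ) (hf : ∀ t, 0 ≤ f t) (v1 u2 v2 u3 v3 : ℕ)
    (o1 : v1 ≤ u2) (o2 : u2 ≤ v2) (o3 : v2 ≤ u3) (o4 : u3 ≤ v3) :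
    ∑ t ∈ Finset.range v1, f t + ∑ t ∈ Finset.range (v2 - u2), f (u2 + t) + ∑ t ∈ Finset.range (v3 - u3), f (u3 + t)
      ≤ ∑ t ∈ Finset.range v3, f t := by
  rw [← Finset.sum_Ico_eq_sum_range, ← Finset.sum_Ico_eq_sum_range, Finset.range_eq_Ico, Finset.range_eq_Ico]
  have a1 := Finset.sum_Ico_consecutive f (Nat.zero_le v1) o1
  have a2 := Finset.sum_Ico_consecutive f (Nat.zero_le u2) o2
  have a3 := Finset.sum_Ico_consecutive f (Nat.zero_le v2) o3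
  have a4 := Finset.sum_Ico_consecutive f (Nat.zero_le u3) o4
  have b1 : 0 ≤ ∑ t ∈ Finset.Ico v1 u2, f t := Finset.sum_nonneg fun t _ => hf t
  have b2 : 0 ≤ ∑ t ∈ Finset.Ico v2 u3, f t := Finset.sum_nonneg fun t _ => hf t
  linarith

/-- **LEAF L-256-INT-A-CHAIN.**  OWNER helper239, EST 90 lines.   `it_k_inf_chain` with `P t = g^(n+t)`, `Q t = g^(n+t+1)`, `t < v3`;  split `range v3` at `v1 ≤ u2 ≤ v2 ≤ u3` (`Finset.sum_range_add` after `v3 = v1 + (u2-v1) + ...`, or `Finset.sum_le_sum_of_subset_of_nonneg` on three disjoint images),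
drop the two gaps (`inf ≥ 0` : `ent_miC_nonneg`). -/
theorem it_a_chain3 (T : Tan) (h0 : 0 < T.δ) (h1 : T.δ < 1) (g l : ℝ) (hg : 1 ≤ g) (n v1 u2 v2 u3 v3 : ℕ)
    (o1 : v1 ≤ u2) (o2 : u2 ≤ v2) (o3 : v2 ≤ u3) (o4 : u3 ≤ v3) :
    ∑ t ∈ Finset.range v1, T.inf l (g ^ (n + t)) (g ^ (n + t + 1))
      + ∑ t ∈ Finset.range (v2 - u2), T.inf l (g ^ (n + u2 + t)) (g ^ (n + u2 + t + 1))
      + ∑ t ∈ Finset.range (v3 - u3), T.inf l (g ^ (n + u3 + t)) (g ^ (n + u3 + t + 1))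
      ≤ T.P.miC (T.Fn (g ^ (n + v3))) (T.O l) T.Cs := by
  have hc := it_k_inf_chain T h0 h1 l v3 (fun t => g ^ (n + t)) (fun t => g ^ (n + t + 1)) (g ^ (n + v3))
    (fun k _ => pow_le_pow_right₀ hg (by omega)) (fun k _ => pow_le_pow_right₀ hg (by omega))
    (fun k hk => pow_le_pow_right₀ hg (by omega))
  have hs := it_a_aux_split3 (fun t => T.inf l (g ^ (n + t)) (g ^ (n + t + 1)))
    (fun t => ent_miC_nonneg _ _ _ _) v1 u2 v2 u3 v3 o1 o2 o3 o4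
  simp only [← add_assoc] at hs
  exact hs.trans hc

/-- **LEAF L-256-INT-A-TIME3.**  OWNER helper239, EST 120 lines.   `l = g^(j0+n) = g^j0 g^n`.  The conditions of the three PAY statements at the layer `(g^(n+i), g^(n+i+1))` follow from `hG.r1, r2, r3` multiplied by `g^n`.  `it_a_range_sum` three times (`s = n, n+u2, n+u3`, `m = v1, v2-u2, v3-u3`), `it_a_chain3`, `htime` at `Q = g^(n+v3)`. -/
theorem it_a_time3 (T : Tan) (pk : ItPk) (h0 : 0 < T.δ) (h1 : T.δ < 1) (c η d : ℝ) (G : ItGr) (hG : G.Ok c η)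
    (θ1 θ2 θ3 ρ1 ρ2 ρ3 : ℝ) (n : ℕ) (hl : G.g ^ (G.j0 + n) ∈ pk.Lam)
    (hp1 : ∀ i < n + G.v3, ∀ l ∈ pk.Lam, 0 * l ≤ G.g ^ i → G.g ^ (i + 1) ≤ min 1 c * l →
      θ1 * T.hF pk.M (G.g ^ i) (G.g ^ (i + 1)) + (ρ1 - η) * (G.g ^ (i + 1) - G.g ^ i) * T.L ≤ T.inf l (G.g ^ i) (G.g ^ (i + 1)))
    (hp2 : ∀ i < n + G.v3, ∀ l ∈ pk.Lam, min 1 c * l ≤ G.g ^ i → G.g ^ (i + 1) ≤ max 1 c * l →
      θ2 * T.hF pk.M (G.g ^ i) (G.g ^ (i + 1)) + (ρ2 - η) * (G.g ^ (i + 1) - G.g ^ i) * T.L ≤ T.inf l (G.g ^ i) (G.g ^ (i + 1)))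
    (hp3 : ∀ i < n + G.v3, ∀ l ∈ pk.Lam, max 1 c * l ≤ G.g ^ i → G.g ^ (i + 1) ≤ (1 + c) * l →
      θ3 * T.hF pk.M (G.g ^ i) (G.g ^ (i + 1)) + (ρ3 - η) * (G.g ^ (i + 1) - G.g ^ i) * T.L ≤ T.inf l (G.g ^ i) (G.g ^ (i + 1)))
    (htime : ∀ Q : ℝ, (d - η) * G.g ^ (G.j0 + n) * T.L + T.P.miC (T.Fn Q) (T.O (G.g ^ (G.j0 + n))) T.Cs
      ≤ T.P.entC (T.O (G.g ^ (G.j0 + n))) T.Cs) :
    (d - η) * G.g ^ (G.j0 + n) * T.L
        + (θ1 * (T.hA pk.M (G.g ^ (n + G.v1)) - T.hA pk.M (G.g ^ n)) + (ρ1 - η) * (G.g ^ (n + G.v1) - G.g ^ n) * T.L)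
        + (θ2 * (T.hA pk.M (G.g ^ (n + G.v2)) - T.hA pk.M (G.g ^ (n + G.u2)))
            + (ρ2 - η) * (G.g ^ (n + G.v2) - G.g ^ (n + G.u2)) * T.L)
        + (θ3 * (T.hA pk.M (G.g ^ (n + G.v3)) - T.hA pk.M (G.g ^ (n + G.u3)))
            + (ρ3 - η) * (G.g ^ (n + G.v3) - G.g ^ (n + G.u3)) * T.L)
      ≤ T.P.entC (T.O (G.g ^ (G.j0 + n))) T.Cs := by
  have hg0 : 0 < G.g := by linarith [hG.g1]
  have hgn : 0 < G.g ^ n := pow_pos hg0 n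
  have o1 := hG.o1
  have o2 := hG.o2
  have o3 := hG.o3
  have o4 := hG.o4
  have up : ∀ (i : ℕ) (x : ℝ), G.g ^ i ≤ x * G.g ^ G.j0 → G.g ^ (n + i) ≤ x * G.g ^ (G.j0 + n) := by
    intro i x hx
    have := mul_le_mul_of_nonneg_left hx hgn.le
    rw [pow_add, pow_add]
    linarith
  have dn : ∀ (i : ℕ) (x : ℝ), x * G.g ^ G.j0 ≤ G.g ^ i → x * G.g ^ (G.j0 + n) ≤ G.g ^ (n + i) := by
    intro i x hx
    have := mul_le_mul_of_nonneg_left hx hgn.le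
    rw [pow_add, pow_add]
    linarith
  have s1 := it_a_range_sum T h0 h1 pk.M G.g (G.g ^ (G.j0 + n)) θ1 (ρ1 - η) hG.g1.le n G.v1 (fun t ht =>
    hp1 (n + t) (by omega) _ hl (by rw [zero_mul]; exact (pow_pos hg0 _).le) (up (t + 1) _ (hG.r1 t ht)))
  have s2 := it_a_range_sum T h0 h1 pk.M G.g (G.g ^ (G.j0 + n)) θ2 (ρ2 - η) hG.g1.le (n + G.u2) (G.v2 - G.u2)
    (fun t ht => by
      have hr := hG.r2 (G.u2 + t) (by omega) (by omega)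
      have e1 : n + G.u2 + t = n + (G.u2 + t) := by omega
      have e2 : n + G.u2 + t + 1 = n + (G.u2 + t + 1) := by omega
      exact hp2 (n + G.u2 + t) (by omega) _ hl (by rw [e1]; exact dn _ _ hr.1) (by rw [e2]; exact up _ _ hr.2))
  have s3 := it_a_range_sum T h0 h1 pk.M G.g (G.g ^ (G.j0 + n)) θ3 (ρ3 - η) hG.g1.le (n + G.u3) (G.v3 - G.u3)
    (fun t ht => by
      have hr := hG.r3 (G.u3 + t) (by omega) (by omega)
      have e1 : n + G.u3 + t = n + (G.u3 + t) := by omega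
      have e2 : n + G.u3 + t + 1 = n + (G.u3 + t + 1) := by omega
      exact hp3 (n + G.u3 + t) (by omega) _ hl (by rw [e1]; exact dn _ _ hr.1) (by rw [e2]; exact up _ _ hr.2))
  have e2 : n + G.u2 + (G.v2 - G.u2) = n + G.v2 := by omega
  have e3 : n + G.u3 + (G.v3 - G.u3) = n + G.v3 := by omega
  rw [e2] at s2
  rw [e3] at s3
  have hc := it_a_chain3 T h0 h1 G.g (G.g ^ (G.j0 + n)) hG.g1.le n G.v1 G.u2 G.v2 G.u3 G.v3 o1 o2 o3 o4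
  have ht := htime (G.g ^ (n + G.v3))
  linarith

/-- the `λ`-grid -/
noncomputable def ItGr.Lam (G : ItGr) : Finset ℝ := (Finset.range G.J).image fun n => G.g ^ (G.j0 + n)

theorem it_a_time_eqns_cite2 : True := by
  have := @ItGr.Lam.eq_1
  trivial

/-- **LEAF L-256-INT-A-MEANEQ.**  OWNER helper239, EST 40 lines.   `n ↦ g^(j0+n)` is injective (`pow_right_injective₀`): `Finset.sum_image`, `Finset.card_image_of_injective`, `Finset.card_range`. -/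
theorem it_a_mean_eq (T : Tan) (pk : ItPk) (k : ℝ) (G : ItGr) (hg : 1 < G.g) (hlam : pk.Lam = G.Lam) :
    T.mean pk k = itMean G.J (fun n => (T.P.entC (T.O (G.g ^ (G.j0 + n))) T.Cs
      - k * T.P.entC (T.Wd (G.g ^ (G.j0 + n))) T.Cs) / (G.g ^ (G.j0 + n) * T.L)) := by
  have hinj : Function.Injective (fun n : ℕ => G.g ^ (G.j0 + n)) := by
    intro a b hab
    have h2 := pow_right_injective₀ (by linarith) hg.ne' hab
    omega
  unfold Tan.mean itMean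
  rw [hlam]
  unfold ItGr.Lam
  rw [Finset.sum_image (fun a _ b _ hab => hinj hab), Finset.card_image_of_injective _ hinj, Finset.card_range]

/-- **THE THREE-RANGE EXIT** -/
theorem it_a_three (quad av cr : Bool) (a : ItPar) (ha : a.Ok) (k θ1 θ2 θ3 ρ1 ρ2 ρ3 ω : ℝ) (hk : 0 ≤ k)
    (hθ1 : 0 ≤ θ1 ∧ θ1 ≤ 1) (hθ2 : 0 ≤ θ2 ∧ θ2 ≤ 1) (hθ3 : 0 ≤ θ3 ∧ θ3 ≤ 1)
    (h1 : ItPay quad av cr a 0 (min 1 a.c) θ1 ρ1) (h2 : ItPay quad av cr a (min 1 a.c) (max 1 a.c) θ2 ρ2)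
    (h3 : ItPay quad av cr a (max 1 a.c) (1 + a.c) θ3 ρ3) (hw : ItWid quad av cr a (if quad then 2 else 1) ω)
    (hΘ : 0 ≤ θ1 * min 1 a.c + θ2 * (max 1 a.c - min 1 a.c) + θ3 * (1 + a.c - max 1 a.c) - k * (if quad then 2 else 1))
    (hnum : a.rhs quad k ≤ a.d + ρ1 * min 1 a.c + ρ2 * (max 1 a.c - min 1 a.c) + ρ3 * (1 + a.c - max 1 a.c) - k * ω) :
    ItExit quad av cr a k := by
  obtain ⟨hc, hd0, hd1, hm0, hm1, hν0, hν1, he0, hB0⟩ := ha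
  have ha : a.Ok := ⟨hc, hd0, hd1, hm0, hm1, hν0, hν1, he0, hB0⟩
  obtain ⟨R0, hR0⟩ : ∃ R0 : ℝ, R0 = 1 + k + |ρ1| + |ρ2| + |ρ3| := ⟨_, rfl⟩
  have hR1 : 1 ≤ R0 := by rw [hR0]; linarith [abs_nonneg ρ1, abs_nonneg ρ2, abs_nonneg ρ3]
  have hkR : k ≤ R0 := by rw [hR0]; linarith [abs_nonneg ρ1, abs_nonneg ρ2, abs_nonneg ρ3]
  have hρ1 : |ρ1| ≤ R0 := by rw [hR0]; linarith [abs_nonneg ρ1, abs_nonneg ρ2, abs_nonneg ρ3]
  have hρ2 : |ρ2| ≤ R0 := by rw [hR0]; linarith [abs_nonneg ρ1, abs_nonneg ρ2, abs_nonneg ρ3]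
  have hρ3 : |ρ3| ≤ R0 := by rw [hR0]; linarith [abs_nonneg ρ1, abs_nonneg ρ2, abs_nonneg ρ3]
  have hC : 0 < 200 * R0 * (1 + a.c) := by positivity
  have htime := it_a_depth_flags (av' := av) (cr' := cr) (it_cost_time quad a ha) (by simp) (by simp)
  refine it_a_engine quad av cr a k _ _ (it_a_layer_and (it_a_layer_and h1 h2) h3) (it_a_depth_and htime hw) ?_
  intro σ hσ
  obtain ⟨η, hηd⟩ : ∃ η : ℝ, η = min 1 (σ / (200 * R0 * (1 + a.c))) := ⟨_, rfl⟩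
  have hη : 0 < η := by rw [hηd]; exact lt_min one_pos (div_pos hσ hC)
  have hη1 : η ≤ 1 := by rw [hηd]; exact min_le_left _ _
  have hησ : 200 * R0 * (1 + a.c) * η ≤ σ := by
    have : η ≤ σ / (200 * R0 * (1 + a.c)) := by rw [hηd]; exact min_le_right _ _
    rw [le_div_iff₀ hC] at this
    linarith
  refine ⟨η, hη, fun κ1 hκ1 => ?_⟩
  obtain ⟨G, hG, hGκ, hGJ⟩ := it_a_grid_exists a.c η κ1 (100 * R0 * (1 + a.c)) hc hη hκ1 (by positivity)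
  obtain ⟨acc1, hacc1, hLl⟩ := it_a_L_large (6 * Real.log (4 * a.B0 + 4))
  have hg0 : 0 < G.g := by linarith [hG.g1]
  refine ⟨G.g - 1, acc1, G.J + G.v3 + G.j0 + G.j2, G.Lam, by linarith [hG.g1], hGκ, hacc1, ?_, ?_, ?_⟩
  · exact ⟨G.g ^ (G.j0 + 0), Finset.mem_image_of_mem _ (Finset.mem_range.2 hG.Jpos)⟩
  · intro l hl
    obtain ⟨n, -, rfl⟩ := Finset.mem_image.1 hl
    exact pow_pos hg0 _
  intro T pk τ κ0 acc hok hlam hacc hquad hadm hLay hDep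
  have e1 : 1 + (G.g - 1) = G.g := by ring
  rw [e1] at hLay hDep
  have h0 := hadm.t0.δ0
  have h1' := hadm.t0.δ1
  have hL : 0 < T.L := it_a_L_pos T h0 h1'
  have hLB : 6 * Real.log (4 * a.B0 + 4) ≤ T.L := hLl T h0 (lt_of_lt_of_le hadm.small hacc)
  obtain ⟨jw, hjw⟩ : ∃ jw : ℕ, jw = if quad then G.j0 + G.j2 else G.j0 := ⟨_, rfl⟩
  have hwg : G.g ^ jw = (if quad then 2 else 1 : ℝ) * G.g ^ G.j0 := by
    rw [hjw]
    cases quad
    · simp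
    · simp only [if_true]
      rw [pow_add, hG.two, mul_comm]
  have hmem : ∀ n < G.J, G.g ^ (G.j0 + n) ∈ pk.Lam := fun n hn => by
    rw [hlam]; exact Finset.mem_image_of_mem _ (Finset.mem_range.2 hn)
  have key := it_a_abs3 a.c η G hG hc hη hη1 a.d k ω θ1 θ2 θ3 ρ1 ρ2 ρ3 R0 T.L (if quad then 2 else 1) jw hwg
    (by split_ifs <;> norm_num) (by rw [hjw]; split_ifs <;> omega) hL hk hkR hR1 hθ1 hθ2 hθ3 hρ1 hρ2 hρ3 hΘ hGJ
    (fun i => T.hA pk.M (G.g ^ i)) (fun n => T.P.entC (T.O (G.g ^ (G.j0 + n))) T.Cs)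
    (fun n => T.P.entC (T.Wd (G.g ^ (G.j0 + n))) T.Cs) (fun i => ent_entC_nonneg _ _ _)
    (fun i => it_a_hA_le T h0 h1' pk.M a.B0 G.g hB0 hG.g1.le hadm.t0.bdF hLB i)
    (fun n hn => it_a_time3 T pk h0 h1' a.c η a.d G hG θ1 θ2 θ3 ρ1 ρ2 ρ3 n (hmem n hn)
      (fun i hi => (hLay i (by omega)).1.1) (fun i hi => (hLay i (by omega)).1.2) (fun i hi => (hLay i (by omega)).2)
      ((hDep (G.j0 + n) (by omega)).1 (hmem n hn)))
    (fun n hn => by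
      have h5 := (hDep (G.j0 + n) (by omega)).2 (hmem n hn)
      have e2 : (if quad then 2 else 1 : ℝ) * G.g ^ (G.j0 + n) = G.g ^ (n + jw) := by
        rw [pow_add G.g n jw, hwg, pow_add]; ring
      rw [e2] at h5
      exact h5)
  rw [it_a_mean_eq T pk k G hG.g1 hlam]
  linarith

end Claimed.Agent.R256
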